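import Vale.Agent.P200.Betti.Koszul
import Vale.Agent.P200.Ext.Lit

/-!
P200, Betti numbers: socle and generators of lex-plus-powers ideals.
-/

namespace Vale.P200.Betti

open MvPolynomial Module Finset Vale.P200.Ext

universe u

variable {K : Type u} [Field K] {n : ℕ}

/-- The monomials of degree `d`, as functions. -/
def allMon (n d : ℕ) : Finset (Fin n → ℕ) := lev (fun _ => d + 1) d

lemma mem_allMon {d : ℕ} {m : Fin n → ℕ} : m ∈ allMon n d ↔ ∑ i, m i = d := by
  rw [allMon, mem_lev, and_iff_right_iff_imp]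
  intro h i
  have := single_le_sum (f := m) (fun l _ => Nat.zero_le _) (mem_univ i)
  omega

lemma lev_subset_allMon (a : Fin n → ℕ) (d : ℕ) : lev a d ⊆ allMon n d := fun _ hm =>
  mem_allMon.2 (mem_lev.1 hm).2

/-- The successors of a set of monomials. -/
def succMon (d : ℕ) (A : Finset (Fin n → ℕ)) : Finset (Fin n → ℕ) := up (fun _ => d + 2) A

/-- The span of a finite set of monomials. -/
noncomputable def monSpace (K : Type u) [Field K] (A : Finset (Fin n → ℕ)) :
    Submodule K (MvPolynomial (Fin n) K) :=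
  restrictSupport K {m : Fin n →₀ ℕ | (m : Fin n → ℕ) ∈ A}

lemma finrank_monSpace (A : Finset (Fin n → ℕ)) : finrank K ↥(monSpace K A) = A.card := by
  rw [monSpace, finrank_restrictSupport_gen, ← Set.ncard_coe_finset A,
    ← Set.ncard_image_of_injective _ (DFunLike.coe_injective (F := Fin n →₀ ℕ))]
  congr 1
  ext g
  simp only [Set.mem_image, Set.mem_ofPred_eq, Finset.mem_coe]
  exact ⟨fun ⟨m, hm, he⟩ => he ▸ hm, fun hg => ⟨Finsupp.equivFunOnFinite.symm g, by simpa using hg,
    by simp⟩⟩

lemma finite_monSpace (A : Finset (Fin n → ℕ)) : FiniteDimensional K ↥(monSpace K A) := by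
  rcases Nat.eq_zero_or_pos A.card with h | h
  · rw [card_eq_zero] at h
    subst h
    have : monSpace K (∅ : Finset (Fin n → ℕ)) = ⊥ := by
      rw [eq_bot_iff]
      intro p hp
      rw [Submodule.mem_bot, ← MvPolynomial.support_eq_empty, Finset.eq_empty_iff_forall_notMem]
      intro x hx
      simpa using hp hx
    rw [this]; infer_instance
  · exact Module.finite_of_finrank_pos (by rw [finrank_monSpace]; exact h)

/-- The monomials of the lex-plus-powers space in degree `d`. -/
noncomputable def lppMono (a : Fin n → ℕ) (h : ℕ) (d : ℕ) : Finset (Fin n → ℕ) :=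
  (allMon n d \ lev a d) ∪ seg a d ((lev a d).card - h)

lemma card_lppMono (a : Fin n → ℕ) (h d : ℕ) :
    (lppMono a h d).card = (allMon n d).card - (lev a d).card + ((lev a d).card - h) := by
  rw [lppMono, card_union_of_disjoint, card_sdiff_of_subset (lev_subset_allMon a d),
    card_seg (Nat.sub_le _ _)]
  exact disjoint_left.2 fun x hx hx' => (mem_sdiff.1 hx).2 (mem_filter.1 hx').1

lemma finrank_hom_allMon (d : ℕ) :
    finrank K ↥(homogeneousSubmodule (Fin n) K d) = (allMon n d).card :=
  finrank_hom_eq_card d (d + 1) d.lt_succ_self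

/-- The lex-plus-powers space, by exponents. -/
lemma lppSpace_eq {a : Fin n → ℕ} {I : Ideal (MvPolynomial (Fin n) K)} {d : ℕ}
    (hI : hq I d ≤ (lev a d).card) :
    lppSpaceN (powersIdeal K le_rfl a) I d = monSpace K (lppMono a (hq I d) d) := by
  classical
  have hout : ∀ m : Fin n →₀ ℕ, m.degree = d → (OutN le_rfl a m ↔ (m : Fin n → ℕ) ∈ lev a d) := by
    intro m hm
    rw [mem_lev, ← Finsupp.degree_eq_sum]
    simp only [OutN, Fin.castLE_rfl, id, hm, and_true]
  have hP : finrank K ↥(grade (powersIdeal K le_rfl a) d) =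
      (allMon n d).card - (lev a d).card := by
    rw [finrank_grade_powers, ← card_sdiff_of_subset (lev_subset_allMon a d),
      ← Set.ncard_coe_finset,
      ← Set.ncard_image_of_injective _ (DFunLike.coe_injective (F := Fin n →₀ ℕ))]
    congr 1
    ext g
    simp only [Set.mem_image, Set.mem_ofPred_eq, Finset.coe_sdiff, Set.mem_sdiff, Finset.mem_coe]
    constructor
    · rintro ⟨m, ⟨hd, ho⟩, rfl⟩
      exact ⟨mem_allMon.2 (by rw [← Finsupp.degree_eq_sum]; exact hd), fun h => ho ((hout m hd).2 h)⟩
    · rintro ⟨hg, hg'⟩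
      have hd : (Finsupp.equivFunOnFinite.symm g).degree = d := by
        rw [Finsupp.degree_eq_sum]; simpa using mem_allMon.1 hg
      exact ⟨Finsupp.equivFunOnFinite.symm g,
        ⟨hd, fun h => hg' (by simpa using (hout _ hd).1 h)⟩, by simp⟩
  have hq' : finrank K ↥(grade I d) - finrank K ↥(grade (powersIdeal K le_rfl a) d) =
      (lev a d).card - hq I d := by
    have h1 := finrank_grade_le_hom (K := K) I d
    have h2 := finrank_hom_allMon (K := K) (n := n) d
    have h3 := card_le_card (lev_subset_allMon a d)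
    simp only [hq] at hI ⊢
    rw [hP]
    omega
  rw [lppSpaceN, monSpace, restrictSupport_eq_span, hq']
  congr 2
  ext m
  simp only [Set.mem_ofPred_eq, monomial_mem_powersIdeal, not_not, lppMono, mem_union, mem_sdiff,
    seg, mem_filter]
  have hrk : ∀ hd : m.degree = d,
      {m' : Fin n →₀ ℕ | m'.degree = d ∧ toLex m < toLex m' ∧ OutN le_rfl a m'}.ncard =
        rk a d (m : Fin n → ℕ) := by
    intro _
    rw [rk, ← Set.ncard_coe_finset,
      ← Set.ncard_image_of_injective _ (DFunLike.coe_injective (F := Fin n →₀ ℕ))]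
    congr 1
    ext g
    simp only [Set.mem_image, Set.mem_ofPred_eq, coe_filter]
    constructor
    · rintro ⟨m', ⟨h1, h2, h3⟩, rfl⟩
      exact ⟨(hout m' h1).1 h3, (toLex_coe_lt m m').2 h2⟩
    · rintro ⟨hg, hlt⟩
      have hd : (Finsupp.equivFunOnFinite.symm g).degree = d := by
        rw [Finsupp.degree_eq_sum]; simpa using (mem_lev.1 hg).2
      exact ⟨Finsupp.equivFunOnFinite.symm g, ⟨hd, (toLex_coe_lt _ _).1 (by simpa using hlt),
        (hout _ hd).2 (by simpa using hg)⟩, by simp⟩
  constructor
  · rintro ⟨hd, h⟩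
    have hall : (m : Fin n → ℕ) ∈ allMon n d :=
      mem_allMon.2 (by rw [← Finsupp.degree_eq_sum]; exact hd)
    by_cases ho : OutN le_rfl a m
    · exact Or.inr ⟨(hout m hd).1 ho, by rw [← hrk hd]; exact h.resolve_left (fun hh => hh ho)⟩
    · exact Or.inl ⟨hall, fun hh => ho ((hout m hd).2 hh)⟩
  · rintro (⟨hall, hm⟩ | ⟨hm, hr⟩)
    · have hd : m.degree = d := by rw [Finsupp.degree_eq_sum]; exact mem_allMon.1 hall
      exact ⟨hd, Or.inl fun ho => hm ((hout m hd).1 ho)⟩
    · have hd : m.degree = d := by rw [Finsupp.degree_eq_sum]; exact (mem_lev.1 hm).2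
      exact ⟨hd, Or.inr (by rw [hrk hd]; exact hr)⟩

/-- The Clements-Lindstrom step over every field from the case of infinite fields. -/
theorem step_of_good {a : Fin n → ℕ} (hmono : Monotone a) (ha : ∀ i, 2 ≤ a i)
    (hgood : ∀ (L : Type u) [Field L] [Infinite L], Good L a)
    {f : Fin n → MvPolynomial (Fin n) K} (hf : ∀ i, (f i).IsHomogeneous (a i))
    (hreg : RegMod ⊥ (List.ofFn f)) {I : Ideal (MvPolynomial (Fin n) K)} (hI : Closed I)
    (hfI : ∀ i, f i ∈ I) (d : ℕ) :
    hq I d ≤ (lev a d).card ∧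
      up a (seg a d ((lev a d).card - hq I d)) ⊆
        seg a (d + 1) ((lev a (d + 1)).card - hq I (d + 1)) := by
  classical
  obtain ⟨S, hS, hP, hcount⟩ := hasMon_of_good le_rfl ha hgood hf hreg hI hfI
  let M : ℕ → Finset (Fin n → ℕ) := fun j =>
    (lev a j).filter fun m => Finsupp.equivFunOnFinite.symm m ∈ S
  have hM : ∀ j, (M j).card + hq I j = (lev a j).card := by
    intro j
    have h1 : ((allMon n j).filter fun m => Finsupp.equivFunOnFinite.symm m ∈ S).card =
        finrank K ↥(grade I j) := by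
      rw [← hcount j, ← Set.ncard_coe_finset, ← Set.ncard_image_of_injective _
        (Finsupp.equivFunOnFinite (α := Fin n) (M := ℕ)).symm.injective]
      congr 1
      ext x
      simp only [Set.mem_image, coe_filter, Set.mem_ofPred_eq, mem_allMon]
      constructor
      · rintro ⟨m, ⟨hs, hm⟩, rfl⟩
        exact ⟨by simpa [Finsupp.degree_eq_sum] using hs, hm⟩
      · rintro ⟨hd', hx⟩
        exact ⟨x, ⟨(Finsupp.degree_eq_sum x).symm.trans hd', by simpa using hx⟩, by simp⟩
    have hsplit : (allMon n j).filter (fun m => Finsupp.equivFunOnFinite.symm m ∈ S) =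
        M j ∪ (allMon n j \ lev a j) := by
      ext m
      simp only [M, mem_filter, mem_union, mem_sdiff]
      constructor
      · rintro ⟨h, h'⟩
        by_cases hA : m ∈ lev a j
        · exact Or.inl ⟨hA, h'⟩
        · exact Or.inr ⟨h, hA⟩
      · rintro (⟨h, h'⟩ | ⟨h, hA⟩)
        · exact ⟨lev_subset_allMon a j h, h'⟩
        · refine ⟨h, ?_⟩
          obtain ⟨i, hi⟩ : ∃ i, a i ≤ m i := by
            by_contra hc
            simp only [not_exists, not_le] at hc
            exact hA (mem_lev.2 ⟨hc, mem_allMon.1 h⟩)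
          refine hS ?_ (hP i)
          rw [Fin.castLE_rfl, id, Finsupp.single_le_iff]
          exact hi
    rw [hsplit, card_union_of_disjoint (disjoint_left.2 fun x hx hx' =>
      (mem_sdiff.1 hx').2 (mem_filter.1 hx).1), card_sdiff_of_subset (lev_subset_allMon a j)] at h1
    have h2 := finrank_hom_allMon (K := K) (n := n) j
    have h3 := card_le_card (lev_subset_allMon a j)
    have h4 := finrank_grade_le_hom (K := K) I j
    simp only [hq, M] at h1 ⊢
    omega
  have hup : up a (M d) ⊆ M (d + 1) := by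
    intro x hx
    obtain ⟨-, m, hm, i, rfl⟩ := mem_up.1 hx
    refine mem_filter.2 ⟨up_subset_lev (filter_subset _ _) hx, ?_⟩
    refine hS ?_ (mem_filter.1 hm).2
    intro l
    simp
  have h0 := hM d
  have h1 := hM (d + 1)
  refine ⟨by omega, ?_⟩
  rw [show (lev a d).card - hq I d = (M d).card by omega,
    show (lev a (d + 1)).card - hq I (d + 1) = (M (d + 1)).card by omega]
  exact up_seg_subset hmono (filter_subset _ _) (card_le_card hup)

lemma closed_sup_span_forms {Q : Ideal (MvPolynomial (Fin n) K)} (hQ : Closed Q)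
    {s : Set (MvPolynomial (Fin n) K)} {d : ℕ} (hs : ∀ x ∈ s, x.IsHomogeneous d) :
    Closed (Q ⊔ Ideal.span s) := by
  intro p hp j
  obtain ⟨p1, hp1, p2, hp2, rfl⟩ := Submodule.mem_sup.1 hp
  rw [map_add]
  refine Submodule.add_mem_sup (hQ p1 hp1 j) ?_
  obtain ⟨N, w, g, hsum⟩ := Submodule.mem_span_set'.1 hp2
  rw [← hsum, map_sum]
  refine sum_mem fun k _ => ?_
  rw [smul_eq_mul, hcomp_mul (hs _ (g k).2)]
  split_ifs
  · exact Ideal.mul_mem_left _ _ (Ideal.subset_span (g k).2)
  · exact zero_mem _

/-- The socle of `S/I` is at most that of the lex-plus-powers quotient. -/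
theorem soc_le {a : Fin n → ℕ} (hmono : Monotone a) (ha : ∀ i, 2 ≤ a i)
    (hgood : ∀ (L : Type u) [Field L] [Infinite L], Good L a)
    {f : Fin n → MvPolynomial (Fin n) K} (hf : ∀ i, (f i).IsHomogeneous (a i))
    (hreg : RegMod ⊥ (List.ofFn f)) {I J : Ideal (MvPolynomial (Fin n) K)} (hI : Closed I)
    (hfI : ∀ i, f i ∈ I) (hJ : ∀ j, grade J j = monSpace K (lppMono a (hq I j) j)) (d : ℕ) :
    finrank K ↥(socSpace I d) ≤ finrank K ↥(socSpace J d) := by
  classical
  set I' := I ⊔ Ideal.span (socSpace I d : Set (MvPolynomial (Fin n) K))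
  have hI' : Closed I' :=
    closed_sup_span_forms (d := d) hI fun x hx => ((mem_socSpace I).1 hx).1
  have hterm : ∀ {s : MvPolynomial (Fin n) K}, s ∈ socSpace I d →
      ∀ r : MvPolynomial (Fin n) K, constantCoeff r = 0 → r * s ∈ I := by
    intro s hs r hr
    have h : r ∈ I.colon {s} := mem_ideal_of_X
      (fun i => Submodule.mem_colon_singleton.2 (((mem_socSpace I).1 hs).2 i)) hr
    exact Submodule.mem_colon_singleton.1 h
  have hgd : grade I' d = socSpace I d := by
    apply le_antisymm
    · rintro p ⟨hp, hpd⟩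
      obtain ⟨p1, hp1, p2, hp2, rfl⟩ := Submodule.mem_sup.1 hp
      rw [← homogeneousComponent_eq_self hpd, map_add]
      refine add_mem ((mem_socSpace I).2 ⟨homogeneousComponent_isHomogeneous _ _,
        fun i => I.mul_mem_left _ (hI p1 hp1 d)⟩) ?_
      obtain ⟨N, w, g, hsum⟩ := Submodule.mem_span_set'.1 hp2
      rw [← hsum, map_sum]
      refine Submodule.sum_mem _ fun k _ => ?_
      rw [smul_eq_mul, hcomp_mul ((mem_socSpace I).1 (g k).2).1, if_pos le_rfl, Nat.sub_self,
        homogeneousComponent_zero, ← smul_eq_C_mul]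
      exact Submodule.smul_mem _ _ (g k).2
    · intro p hp
      exact ⟨Submodule.mem_sup_right (Ideal.subset_span hp), ((mem_socSpace I).1 hp).1⟩
  have hgd1 : grade I' (d + 1) = grade I (d + 1) := by
    refine le_antisymm ?_ (inf_le_inf_right _ (le_sup_left (a := I)))
    rintro p ⟨hp, hpd⟩
    refine ⟨?_, hpd⟩
    obtain ⟨p1, hp1, p2, hp2, rfl⟩ := Submodule.mem_sup.1 hp
    rw [← homogeneousComponent_eq_self hpd, map_add]
    refine I.add_mem (hI p1 hp1 _) ?_
    obtain ⟨N, w, g, hsum⟩ := Submodule.mem_span_set'.1 hp2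
    rw [← hsum, map_sum]
    refine I.sum_mem fun k _ => ?_
    rw [smul_eq_mul, hcomp_mul ((mem_socSpace I).1 (g k).2).1, if_pos (by omega),
      Nat.add_sub_cancel_left]
    refine hterm (g k).2 _ ?_
    rw [constantCoeff_eq]
    exact (homogeneousComponent_isHomogeneous 1 _).coeff_eq_zero (by rw [map_zero]; omega)
  obtain ⟨hle, hstep⟩ :=
    step_of_good hmono ha hgood hf hreg hI' (fun i => Submodule.mem_sup_left (hfI i)) d
  have hq1 : hq I' (d + 1) = hq I (d + 1) := congrArg (fun T : Submodule K (MvPolynomial (Fin n) K) =>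
    finrank K ↥(homogeneousSubmodule (Fin n) K (d + 1)) - finrank K ↥T) hgd1
  rw [hq1] at hstep
  set B := lppMono a (hq I' d) d
  have hsub : monSpace K B ≤ socSpace J d := by
    rw [monSpace, restrictSupport_eq_span, Submodule.span_le]
    rintro _ ⟨m, hm, rfl⟩
    have hm' : (m : Fin n → ℕ) ∈ (allMon n d \ lev a d) ∪ seg a d ((lev a d).card - hq I' d) := hm
    have hdeg : m.degree = d := by
      rw [Finsupp.degree_eq_sum]
      rcases mem_union.1 hm' with h | h
      · exact mem_allMon.1 (mem_sdiff.1 h).1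
      · exact (mem_lev.1 (mem_filter.1 h).1).2
    refine (mem_socSpace J).2 ⟨isHomogeneous_monomial _ hdeg, fun i => ?_⟩
    have hx : monomial (Finsupp.single i 1 + m) (1 : K) ∈ grade J (d + 1) := by
      rw [hJ, monSpace, monomial_mem_restrictSupport]
      left
      show ((Finsupp.single i 1 + m : Fin n →₀ ℕ) : Fin n → ℕ) ∈
        (allMon n (d + 1) \ lev a (d + 1)) ∪ seg a (d + 1) ((lev a (d + 1)).card - hq I (d + 1))
      have hfun : ((Finsupp.single i 1 + m : Fin n →₀ ℕ) : Fin n → ℕ) =
          (m : Fin n → ℕ) + Pi.single i 1 := by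
        funext l
        simp [Finsupp.single_apply, Pi.single_apply, eq_comm, add_comm]
      have hsum : ∑ l, ((m : Fin n → ℕ) + Pi.single i 1 : Fin n → ℕ) l = d + 1 := by
        simp [sum_add_distrib, ← Finsupp.degree_eq_sum, hdeg]
      rw [hfun]
      by_cases hlev : (m : Fin n → ℕ) + Pi.single i 1 ∈ lev a (d + 1)
      · refine mem_union_right _ (hstep (mem_up.2 ⟨(mem_lev.1 hlev).1, m, ?_, i, rfl⟩))
        rcases mem_union.1 hm' with h | h
        · refine absurd (mem_lev.2 ⟨fun l => ?_, mem_allMon.1 (mem_sdiff.1 h).1⟩) (mem_sdiff.1 h).2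
          exact lt_of_le_of_lt (by simp) ((mem_lev.1 hlev).1 l)
        · exact h
      · exact mem_union_left _ (mem_sdiff.2 ⟨mem_allMon.2 hsum, hlev⟩)
    rw [show monomial (Finsupp.single i 1 + m) (1 : K) = X i * monomial m 1 by
      rw [monomial_single_add, pow_one]] at hx
    exact hx.1
  have := finite_hom (K := K) (n := n) d
  have : FiniteDimensional K ↥(socSpace J d) := Submodule.finiteDimensional_of_le inf_le_left
  have h1 := Submodule.finrank_mono hsub
  rw [finrank_monSpace, card_lppMono] at h1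
  rw [← hgd]
  have h2 := finrank_grade_le_hom (K := K) I' d
  have h3 := card_le_card (lev_subset_allMon a d)
  have h4 := finrank_hom_allMon (K := K) (n := n) d
  simp only [hq] at h1 hle
  omega

/-- The degree-`d + 1` forms of the ideal of a monomial space lie on the successors. -/
lemma genSpace_mon {J : Ideal (MvPolynomial (Fin n) K)} {d : ℕ} {A : Finset (Fin n → ℕ)}
    (hA : A ⊆ allMon n d) (hJ : grade J d = monSpace K A) :
    grade (Ideal.span (grade J d : Set (MvPolynomial (Fin n) K))) (d + 1) ≤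
      monSpace K (succMon d A) := by
  refine (genSpace_le J d).trans ?_
  rintro _ ⟨f, hf, rfl⟩
  rw [LinearMap.comp_apply, LinearMap.proj_apply, kd_apply]
  refine Submodule.sum_mem _ fun i _ => ?_
  have h := (mem_suppOn.1 hf).1 (insert i ∅) (by simp)
  rw [hJ, monSpace, restrictSupport_eq_span] at h
  have hs : sgn (MvPolynomial (Fin n) K) i (∅ : Finset (Fin n)) = 1 := by simp [sgn]
  rw [hs, one_mul, ← LinearMap.mulLeft_apply (R := K)]
  refine Submodule.mem_comap.1 (Submodule.span_le.2 ?_ h)
  rintro _ ⟨m, hm, rfl⟩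
  show X i * monomial m (1 : K) ∈ monSpace K (succMon d A)
  rw [← pow_one (X i), ← monomial_single_add, monSpace, monomial_mem_restrictSupport]
  left
  have hm' : (m : Fin n → ℕ) ∈ A := hm
  have hfun : ((Finsupp.single i 1 + m : Fin n →₀ ℕ) : Fin n → ℕ) =
      (m : Fin n → ℕ) + Pi.single i 1 := by
    funext l
    simp [Finsupp.single_apply, Pi.single_apply, eq_comm, add_comm]
  show ((Finsupp.single i 1 + m : Fin n →₀ ℕ) : Fin n → ℕ) ∈ succMon d A
  rw [hfun]
  refine mem_up.2 ⟨fun l => ?_, m, hm', i, rfl⟩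
  have := (mem_lev.1 (hA hm')).1 l
  simp only [Pi.add_apply, Pi.single_apply]
  split_ifs <;> omega

/-- A form of degree at most `d` times a form reaching degree `d + 1` lies in the ideal of
`I_d`. -/
lemma mul_mem_span_grade {I : Ideal (MvPolynomial (Fin n) K)} {g r : MvPolynomial (Fin n) K}
    {e d : ℕ} (hg : g ∈ I) (hge : g.IsHomogeneous e) (hed : e ≤ d)
    (hr : r.IsHomogeneous (d + 1 - e)) :
    r * g ∈ Ideal.span (grade I d : Set (MvPolynomial (Fin n) K)) := by
  rw [r.as_sum, Finset.sum_mul]
  refine sum_mem fun δ hδ => ?_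
  have hdeg : δ.degree = d + 1 - e := by
    by_contra hne
    exact mem_support_iff.1 hδ (hr.coeff_eq_zero hne)
  obtain ⟨i, hi⟩ : ∃ i, δ i ≠ 0 := by
    by_contra hh
    simp only [not_exists, not_not] at hh
    rw [show δ = 0 from Finsupp.ext hh, map_zero] at hdeg
    omega
  have h1 := tsub_add_cancel_of_le (Finsupp.single_le_iff.2 (by omega : 1 ≤ δ i))
  have h2 := congrArg Finsupp.degree h1
  rw [map_add, Finsupp.degree_single] at h2
  rw [← h1, monomial_add_single, pow_one, mul_comm (monomial _ _) (X i), mul_assoc]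
  refine Ideal.mul_mem_left _ _ (Ideal.subset_span ⟨I.mul_mem_left _ hg, ?_⟩)
  have h4 : (monomial (δ - Finsupp.single i 1) (coeff δ r) * g).IsHomogeneous d := by
    have := (isHomogeneous_monomial (R := K) (n := (δ - Finsupp.single i 1).degree)
      (coeff δ r) rfl).mul hge
    exact (show (δ - Finsupp.single i 1).degree + e = d by omega) ▸ this
  simpa [h1] using h4

/-- Generators: if the degrees may be lowered to `d` at the powers inside the segment, then
`S₁ I_d` is at least as large as the successors of the lex-plus-powers monomials. -/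
theorem gen_ge [Infinite K] {a a' : Fin n → ℕ} (ha : ∀ i, 1 ≤ a i) {d : ℕ}
    {I : Ideal (MvPolynomial (Fin n) K)}
    (hle : hq I d ≤ (lev a d).card)
    (ha' : ∀ k, (a k = d + 1 ∧ Pi.single k d ∈ seg a d ((lev a d).card - hq I d) → a' k = d) ∧
      (¬(a k = d + 1 ∧ Pi.single k d ∈ seg a d ((lev a d).card - hq I d)) → a' k = a k))
    (hgood : Good K a') {g : Fin n → MvPolynomial (Fin n) K}
    (hg : ∀ i, (g i).IsHomogeneous (a' i)) (hreg : RegMod ⊥ (List.ofFn g))
    (hgI : ∀ i, g i ∈ I) :
    (succMon d (lppMono a (hq I d) d)).card ≤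
      finrank K ↥(grade (Ideal.span (grade I d : Set (MvPolynomial (Fin n) K))) (d + 1)) := by
  classical
  set q := (lev a d).card - hq I d with hqdef
  set G := grade (Ideal.span (grade I d : Set (MvPolynomial (Fin n) K))) (d + 1) with hG
  set Q := Ideal.ofList (List.ofFn g)
  set I' := Q ⊔ Ideal.span (grade I d : Set (MvPolynomial (Fin n) K))
  have hQcl : Closed Q := closed_ofList fun x hx => by
    obtain ⟨i, rfl⟩ := List.mem_ofFn.1 hx
    exact ⟨_, hg i⟩
  have hI' : Closed I' := closed_sup_span_forms (d := d) hQcl fun x hx => hx.2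
  have hI'I : I' ≤ I := sup_le
    (Ideal.span_le.2 fun x hx => by obtain ⟨i, rfl⟩ := List.mem_ofFn.1 hx; exact hgI i)
    (Ideal.span_le.2 fun x hx => hx.1)
  have hgd : grade I' d = grade I d := le_antisymm (inf_le_inf_right _ hI'I) fun p hp =>
    ⟨Submodule.mem_sup_right (Ideal.subset_span hp), hp.2⟩
  have hq0 : hq I' d = hq I d := congrArg (fun T : Submodule K (MvPolynomial (Fin n) K) =>
    finrank K ↥(homogeneousSubmodule (Fin n) K d) - finrank K ↥T) hgd
  let Kk : Finset (Fin n) := univ.filter fun k => a' k = d + 1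
  have hbound : finrank K ↥(grade I' (d + 1)) ≤ finrank K ↥G + Kk.card := by
    have hsub : grade I' (d + 1) ≤ G ⊔ Submodule.span K (Kk.image g : Set (MvPolynomial (Fin n) K)) := by
      rintro p ⟨hp, hpd⟩
      obtain ⟨p1, hp1, p2, hp2, rfl⟩ := Submodule.mem_sup.1 hp
      rw [← homogeneousComponent_eq_self hpd, map_add]
      refine add_mem ?_ ?_
      · obtain ⟨N, w, x, hsum⟩ := Submodule.mem_span_set'.1 hp1
        rw [← hsum, map_sum]
        refine Submodule.sum_mem _ fun k _ => ?_
        obtain ⟨i, hi⟩ := List.mem_ofFn.1 (x k).2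
        rw [smul_eq_mul, ← hi, hcomp_mul (hg i)]
        split_ifs with h
        · rcases h.eq_or_lt with he | hlt
          · rw [he, Nat.sub_self, homogeneousComponent_zero, ← smul_eq_C_mul]
            refine Submodule.smul_mem _ _ (Submodule.mem_sup_right (Submodule.subset_span ?_))
            exact Finset.mem_coe.2 (mem_image.2 ⟨i, mem_filter.2 ⟨mem_univ i, he⟩, rfl⟩)
          · refine Submodule.mem_sup_left ⟨mul_mem_span_grade (hgI i) (hg i) (by omega)
              (homogeneousComponent_isHomogeneous _ _), ?_⟩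
            have := (homogeneousComponent_isHomogeneous (d + 1 - a' i) (w k)).mul (hg i)
            rwa [Nat.sub_add_cancel h] at this
        · exact zero_mem _
      · have hcl : Closed (⊥ ⊔ Ideal.span (grade I d : Set (MvPolynomial (Fin n) K))) :=
          closed_sup_span_forms (d := d) closed_bot fun x hx => hx.2
        rw [bot_sup_eq] at hcl
        exact Submodule.mem_sup_left ⟨hcl p2 hp2 _, homogeneousComponent_isHomogeneous _ _⟩
    have := finite_grade (Ideal.span (grade I d : Set (MvPolynomial (Fin n) K))) (d + 1)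
    have : FiniteDimensional K ↥(Submodule.span K (Kk.image g : Set (MvPolynomial (Fin n) K))) :=
      FiniteDimensional.span_finset K _
    refine (Submodule.finrank_mono hsub).trans ((Submodule.finrank_add_le_finrank_add_finrank _ _).trans ?_)
    exact Nat.add_le_add_left ((finrank_span_finset_le_card _).trans card_image_le) _
  obtain ⟨hle', hstep⟩ := hgood g hg hreg I' hI'
    (fun i => Submodule.mem_sup_left (Ideal.subset_span (List.mem_ofFn.2 ⟨i, rfl⟩))) d
  rw [hq0] at hle' hstep
  -- the two boxes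
  have hpure : ∀ m ∈ lev a d, m ∉ lev a' d → m ∈ seg a d q := by
    intro m hm hm'
    obtain ⟨hb, hs⟩ := mem_lev.1 hm
    obtain ⟨k, hk⟩ : ∃ k, a' k ≤ m k := by
      by_contra hc
      simp only [not_exists, not_le] at hc
      exact hm' (mem_lev.2 ⟨hc, hs⟩)
    by_cases hR : a k = d + 1 ∧ Pi.single k d ∈ seg a d q
    · have hkd := (ha' k).1 hR
      have : m = Pi.single k d := by
        funext l
        rw [← add_sum_erase _ _ (mem_univ k)] at hs
        rcases eq_or_ne l k with rfl | hl
        · simp; omega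
        · have := single_le_sum (f := m) (fun l _ => Nat.zero_le _) (mem_erase.2 ⟨hl, mem_univ l⟩)
          simp [hl]; omega
      exact this ▸ hR.2
    · have := (ha' k).2 hR
      have := hb k
      omega
  have hle_a : ∀ k, a' k ≤ a k := fun k => by
    by_cases hR : a k = d + 1 ∧ Pi.single k d ∈ seg a d q
    · have := (ha' k).1 hR; omega
    · exact ((ha' k).2 hR).le
  have hsub' : lev a' d ⊆ lev a d := fun m hm =>
    mem_lev.2 ⟨fun k => lt_of_lt_of_le ((mem_lev.1 hm).1 k) (hle_a k), (mem_lev.1 hm).2⟩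
  set B := (seg a d q).filter fun m => m ∈ lev a' d with hBdef
  have hBseg : IsSeg a' d B := ⟨fun m hm => (mem_filter.1 hm).2, fun x hx y hy hlt =>
    mem_filter.2 ⟨(isSeg_seg a d q).2 x (hsub' hx) y (mem_filter.1 hy).1 hlt, hx⟩⟩
  have hBcard : B.card = (lev a' d).card - hq I d := by
    have h1 := card_filter_add_card_filter_not (s := seg a d q) fun m => m ∈ lev a' d
    have h2 : ((seg a d q).filter fun m => ¬ m ∈ lev a' d) = lev a d \ lev a' d := by
      ext m
      simp only [mem_filter, mem_sdiff]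
      exact ⟨fun ⟨h, h'⟩ => ⟨(mem_filter.1 h).1, h'⟩, fun ⟨h, h'⟩ => ⟨hpure m h h', h'⟩⟩
    rw [h2, card_sdiff_of_subset hsub', card_seg (Nat.sub_le _ _), ← hBdef] at h1
    have := card_le_card hsub'
    omega
  have hup : (up a' B).card ≤ (lev a' (d + 1)).card - hq I' (d + 1) := by
    rw [hBseg.eq_seg, hBcard]
    exact (card_le_card hstep).trans (card_seg (Nat.sub_le _ _)).le
  -- successors and pure powers
  let Pure : Finset (Fin n → ℕ) := Kk.image fun k => Pi.single k (d + 1)
  have hPcard : Pure.card = Kk.card := by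
    refine card_image_of_injective _ fun k l h => ?_
    by_contra hne
    have := congrFun h k
    simp [hne] at this
  have hdisj : Disjoint (succMon d (lppMono a (hq I d) d)) Pure := by
    rw [disjoint_left]
    intro x hx hx'
    obtain ⟨k, hk, rfl⟩ := mem_image.1 hx'
    have hk' := (mem_filter.1 hk).2
    obtain ⟨-, m, hm, i, hmi⟩ := mem_up.1 hx
    have hak : a k = d + 1 ∧ Pi.single k d ∉ seg a d q := by
      by_cases hR : a k = d + 1 ∧ Pi.single k d ∈ seg a d q
      · have := (ha' k).1 hR; omega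
      · have h2 := (ha' k).2 hR
        exact ⟨by omega, fun h => hR ⟨by omega, h⟩⟩
    have hm0 : m = Pi.single k d := by
      funext l
      have h1 := congrFun hmi l
      have h2 := congrFun hmi i
      rcases eq_or_ne i k with rfl | hik
      · rcases eq_or_ne l i with rfl | hl
        · simp at h1 ⊢; omega
        · simp [hl] at h1 ⊢; omega
      · simp [hik] at h2
    subst hm0
    rcases mem_union.1 hm with h | h
    · refine (mem_sdiff.1 h).2 (mem_lev.2 ⟨fun l => ?_, by simp⟩)
      have := ha l
      rcases eq_or_ne l k with rfl | hl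
      · simp; omega
      · simp [hl]; omega
    · exact hak.2 h
  have hcover : succMon d (lppMono a (hq I d) d) ∪ Pure ⊆
      (allMon n (d + 1) \ lev a' (d + 1)) ∪ up a' B := by
    intro x hx
    rcases mem_union.1 hx with hx | hx
    · obtain ⟨-, m, hm, i, rfl⟩ := mem_up.1 hx
      have hmall : ∑ l, m l = d := by
        rcases mem_union.1 hm with h | h
        · exact mem_allMon.1 (mem_sdiff.1 h).1
        · exact (mem_lev.1 (mem_filter.1 h).1).2
      by_cases hl : m + Pi.single i 1 ∈ lev a' (d + 1)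
      · have hm' : m ∈ lev a' d :=
          mem_lev.2 ⟨fun l => lt_of_le_of_lt (by simp) ((mem_lev.1 hl).1 l), hmall⟩
        refine mem_union_right _ (mem_up.2 ⟨(mem_lev.1 hl).1, m, mem_filter.2 ⟨?_, hm'⟩, i, rfl⟩)
        rcases mem_union.1 hm with h | h
        · exact absurd (hsub' hm') (mem_sdiff.1 h).2
        · exact h
      · exact mem_union_left _ (mem_sdiff.2 ⟨mem_allMon.2 (by simp [sum_add_distrib, hmall]), hl⟩)
    · obtain ⟨k, hk, rfl⟩ := mem_image.1 hx
      refine mem_union_left _ (mem_sdiff.2 ⟨mem_allMon.2 (by simp), fun h => ?_⟩)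
      have := (mem_lev.1 h).1 k
      have := (mem_filter.1 hk).2
      simp at *
      omega
  have h1 := (card_le_card hcover).trans (card_union_le _ _)
  rw [card_union_of_disjoint hdisj, hPcard,
    card_sdiff_of_subset (lev_subset_allMon a' (d + 1))] at h1
  have h2 := finrank_hom_allMon (K := K) (n := n) (d + 1)
  have h3 := card_le_card (lev_subset_allMon a' (d + 1))
  have h4 := finrank_grade_le_hom (K := K) I' (d + 1)
  have h5 : hq I' (d + 1) ≤ (lev a' (d + 1)).card :=
    (hgood g hg hreg I' hI'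
      (fun i => Submodule.mem_sup_left (Ideal.subset_span (List.mem_ofFn.2 ⟨i, rfl⟩))) (d + 1)).1
  simp only [hq] at hup h5
  omega

end Vale.P200.Betti
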