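import Mathlib

/-!
P200, Betti numbers: the Koszul complex of the variables on a graded quotient.
-/

namespace Vale.P200.Betti

open MvPolynomial Module Finset

universe u

section Complex

variable (K : Type u) [Field K] {R : Type*} [CommRing R] [Algebra K R] {n : ℕ}

/-- The sign of `i` before `U`. -/
def sgn (R : Type*) [CommRing R] (i : Fin n) (U : Finset (Fin n)) : R :=
  (-1) ^ (U.filter (· < i)).card

/-- The Koszul differential of `y`: `(d f) U = ∑ (i ∉ U) ± y i * f (U + i)`. -/
noncomputable def kd (y : Fin n → R) : (Finset (Fin n) → R) →ₗ[K] (Finset (Fin n) → R) where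
  toFun f U := ∑ i ∈ Uᶜ, sgn R i U * y i * f (insert i U)
  map_add' f g := funext fun U => by simp [mul_add, sum_add_distrib]
  map_smul' r f := funext fun U => by simp [smul_sum]

/-- The functions on `p`-sets with values in `M`. -/
def suppOn (p : ℕ) (M : Submodule K R) : Submodule K (Finset (Fin n) → R) :=
  Submodule.pi Set.univ fun U => if U.card = p then M else ⊥

variable {K}

lemma mem_suppOn {p : ℕ} {M : Submodule K R} {f : Finset (Fin n) → R} :
    f ∈ suppOn K p M ↔ (∀ U, U.card = p → f U ∈ M) ∧ ∀ U, U.card ≠ p → f U = 0 := by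
  simp only [suppOn, Submodule.mem_pi, Set.mem_univ, true_imp_iff]
  constructor
  · exact fun h => ⟨fun U hU => by simpa [hU] using h U, fun U hU => by simpa [hU] using h U⟩
  · rintro ⟨h1, h2⟩ U
    split_ifs with hU
    · exact h1 U hU
    · simp [h2 U hU]

lemma kd_apply (y : Fin n → R) (f : Finset (Fin n) → R) (U : Finset (Fin n)) :
    kd K y f U = ∑ i ∈ Uᶜ, sgn R i U * y i * f (insert i U) := rfl

lemma sgn_sq (i : Fin n) (U : Finset (Fin n)) : sgn R i U * sgn R i U = 1 := by
  rw [sgn, ← mul_pow, neg_one_mul, neg_neg, one_pow]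

lemma sgn_insert (R : Type*) [CommRing R] {i k : Fin n} {U : Finset (Fin n)} (hi : i ∉ U) :
    sgn R k (insert i U) = (if i < k then -1 else 1) * sgn R k U := by
  unfold sgn
  rw [filter_insert]
  split_ifs with h
  · rw [card_insert_of_notMem (by simp [hi]), pow_succ]; ring
  · rw [one_mul]

lemma kd_kd (y : Fin n → R) (f : Finset (Fin n) → R) : kd K y (kd K y f) = 0 := by
  funext U
  simp only [kd_apply, mul_sum, Pi.zero_apply]
  rw [sum_sigma']
  refine sum_involution (fun x _ => ⟨x.2, x.1⟩) ?_ ?_ ?_ ?_
  · rintro ⟨i, k⟩ h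
    simp only [mem_sigma, mem_compl, mem_insert, not_or] at h
    obtain ⟨hi, hki, hk⟩ := h
    show sgn R i U * y i * (sgn R k (insert i U) * y k * f (insert k (insert i U))) +
      sgn R k U * y k * (sgn R i (insert k U) * y i * f (insert i (insert k U))) = 0
    rw [Finset.insert_comm i k U, sgn_insert R hi, sgn_insert R hk]
    rcases lt_trichotomy i k with h | h | h
    · rw [if_pos h, if_neg (not_lt.2 h.le)]; ring
    · exact absurd h.symm hki
    · rw [if_neg (not_lt.2 h.le), if_pos h]; ring
  · rintro ⟨i, k⟩ h _ he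
    simp only [mem_sigma, mem_compl, mem_insert, not_or] at h
    exact h.2.1 (congrArg Sigma.fst he)
  · rintro ⟨i, k⟩ h
    simp only [mem_sigma, mem_compl, mem_insert, not_or] at h ⊢
    exact ⟨h.2.2, Ne.symm h.2.1, h.1⟩
  · rintro ⟨i, k⟩ _
    rfl

/-- The dimension of `suppOn`. -/
lemma finrank_suppOn (p : ℕ) (M : Submodule K R) [FiniteDimensional K M] :
    finrank K ↥(suppOn (n := n) K p M) = n.choose p * finrank K M := by
  let e : ↥(suppOn (n := n) K p M) ≃ₗ[K] ({U : Finset (Fin n) // U.card = p} → M) :=
    { toFun := fun f U => ⟨f.1 U.1, (mem_suppOn.1 f.2).1 U.1 U.2⟩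
      invFun := fun g => ⟨fun U => if h : U.card = p then (g ⟨U, h⟩ : R) else 0, mem_suppOn.2
        ⟨fun U hU => by simp [hU], fun U hU => by simp [hU]⟩⟩
      map_add' := fun f g => rfl
      map_smul' := fun r f => rfl
      left_inv := fun f => Subtype.ext (funext fun U => by
        by_cases hU : U.card = p
        · simp [hU]
        · simp [hU, (mem_suppOn.1 f.2).2 U hU])
      right_inv := fun g => funext fun U => Subtype.ext (by simp [U.2]) }
  rw [e.finrank_eq, finrank_pi_fintype, Finset.sum_const, Finset.card_univ, smul_eq_mul,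
    Fintype.card_finset_len, Fintype.card_fin]

lemma finite_suppOn (p : ℕ) (M : Submodule K R) [FiniteDimensional K M] :
    FiniteDimensional K ↥(suppOn (n := n) K p M) := by
  refine Module.Finite.of_injective
    ((LinearMap.pi fun U : Finset (Fin n) =>
      (LinearMap.codRestrict M ((LinearMap.proj U).comp (suppOn (n := n) K p M).subtype) fun f => by
        by_cases hU : U.card = p
        · exact (mem_suppOn.1 f.2).1 U hU
        · show f.1 U ∈ M
          rw [(mem_suppOn.1 f.2).2 U hU]; exact M.zero_mem)) :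
      ↥(suppOn (n := n) K p M) →ₗ[K] (Finset (Fin n) → M)) ?_
  exact fun f g h => Subtype.ext (funext fun U => congrArg Subtype.val (congrFun h U :))

end Complex

variable {K : Type u} [Field K] {n : ℕ}

/-- The degree-`d` part of `S/I`. -/
noncomputable def quotPart (I : Ideal (MvPolynomial (Fin n) K)) (d : ℕ) :
    Submodule K (MvPolynomial (Fin n) K ⧸ I) :=
  (homogeneousSubmodule (Fin n) K d).map (Ideal.Quotient.mkₐ K I).toLinearMap

/-- The chains of homological degree `p` and internal degree `j` of the Koszul complex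
`S/I ⊗ ∧ K^n`. -/
noncomputable def koszulChains (I : Ideal (MvPolynomial (Fin n) K)) (p j : ℕ) :
    Submodule K (Finset (Fin n) → MvPolynomial (Fin n) K ⧸ I) :=
  suppOn K p (if p ≤ j then quotPart I (j - p) else ⊥)

/-- The differential of the Koszul complex of `X 0, …, X (n-1)` on `S/I`. -/
noncomputable def koszulD (I : Ideal (MvPolynomial (Fin n) K)) :
    (Finset (Fin n) → MvPolynomial (Fin n) K ⧸ I) →ₗ[K]
      (Finset (Fin n) → MvPolynomial (Fin n) K ⧸ I) :=
  kd K fun i => Ideal.Quotient.mk I (X i)

/-- The graded Betti number `β_{p,j}` of `S/I`: the dimension of the degree-`j` part of the `p`-th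
Koszul homology, that is of `Tor_p(S/I, K)`. -/
noncomputable def betti (I : Ideal (MvPolynomial (Fin n) K)) (p j : ℕ) : ℕ :=
  finrank K ↥(koszulChains I p j ⊓ LinearMap.ker (koszulD I)) -
    finrank K ↥((koszulChains I (p + 1) j).map (koszulD I))

end Vale.P200.Betti
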