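import Vale.Agent.P200.Betti.Replace

/-!
P200, Betti numbers: the lex-plus-powers conjecture in three variables.
-/

namespace Vale.P200.Betti

open MvPolynomial Module Finset Vale.P200.Ext

universe u

variable {K : Type u} [Field K]

lemma hq_congr {n : ℕ} {I J : Ideal (MvPolynomial (Fin n) K)} {d : ℕ}
    (h : grade J d = grade I d) : hq J d = hq I d :=
  congrArg (fun T : Submodule K (MvPolynomial (Fin n) K) =>
    finrank K ↥(homogeneousSubmodule (Fin n) K d) - finrank K ↥T) h

/-- The socle of degree `d` depends only on the part of degree `d + 1`. -/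
lemma socSpace_congr {n : ℕ} {I J : Ideal (MvPolynomial (Fin n) K)} {d : ℕ}
    (h : grade J (d + 1) = grade I (d + 1)) : socSpace J d = socSpace I d := by
  ext p
  rw [mem_socSpace, mem_socSpace]
  refine and_congr_right fun hp => forall_congr' fun i => ?_
  have hh : (X i * p).IsHomogeneous (d + 1) := by
    rw [add_comm]; exact (isHomogeneous_X K i).mul hp
  exact ⟨fun hm => (h ▸ ⟨hm, hh⟩ : X i * p ∈ grade I (d + 1)).1,
    fun hm => (h.symm ▸ ⟨hm, hh⟩ : X i * p ∈ grade J (d + 1)).1⟩

/-- In three variables `β_{p,j}` depends only on the parts of degree at most `j`. -/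
lemma betti_congr_low {I J : Ideal (MvPolynomial (Fin 3) K)} {j : ℕ}
    (h : ∀ e ≤ j, grade J e = grade I e) (p : ℕ) : betti J p j = betti I p j := by
  have hhq : ∀ e ≤ j, hq J e = hq I e := fun e he => hq_congr (h e he)
  have h1 : betti J 1 j = betti I 1 j := by
    cases j with
    | zero => rw [betti_one_zero, betti_one_zero]
    | succ e =>
      have hJ := betti_one J e
      have hI := betti_one I e
      rw [h e (by omega), h (e + 1) le_rfl] at hJ
      omega
  have h3 : betti J 3 j = betti I 3 j := by
    rcases Nat.lt_or_ge j 3 with hj | hj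
    · rw [betti_eq_zero J (Or.inr hj), betti_eq_zero I (Or.inr hj)]
    · obtain ⟨e, rfl⟩ : ∃ e, j = e + 3 := ⟨j - 3, by omega⟩
      have hJ := betti_top J e
      have hI := betti_top I e
      rw [h e (by omega), socSpace_congr (h (e + 1) (by omega))] at hJ
      omega
  match p with
  | 0 => exact betti_zero_congr hhq
  | 1 => exact h1
  | 2 =>
    exact le_antisymm (betti_two_le (fun e he => (hhq e he).symm) h1.le h3.le)
      (betti_two_le hhq h1.ge h3.ge)
  | 3 => exact h3
  | k + 4 =>
    rw [betti_eq_zero J (Or.inl (by omega : 3 < k + 4)),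
      betti_eq_zero I (Or.inl (by omega : 3 < k + 4))]

/-- The statement for `c` forms in three variables. -/
def LppBetti (K : Type u) [Field K] (c : ℕ) : Prop :=
  ∀ (h : c ≤ 3) (a : Fin c → ℕ), (∀ i, 2 ≤ a i) → Monotone a →
    ∀ f : Fin c → MvPolynomial (Fin 3) K, (∀ i, (f i).IsHomogeneous (a i)) →
      RegMod ⊥ (List.ofFn f) →
    ∀ I : Ideal (MvPolynomial (Fin 3) K), Closed I → (∀ i, f i ∈ I) →
    ∃ J : Ideal (MvPolynomial (Fin 3) K),
      (∀ d, grade J d = lppSpaceN (powersIdeal K h a) I d ∧
        finrank K ↥(grade J d) = finrank K ↥(grade I d)) ∧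
      ∀ p j, betti I p j ≤ betti J p j

/-- Three forms. -/
theorem lppBetti_three : LppBetti K 3 := by
  intro h a ha hmono f hf hreg I hI hfI
  have hgood : ∀ (L : Type u) [Field L] [Infinite L], Good L a := fun L _ _ =>
    good_vec (ha 0) (hmono (by decide)) (hmono (by decide))
  obtain ⟨J, hJ⟩ := exists_lpp_of_hasMon h hmono (hasMon_of_good h ha hgood hf hreg hI hfI)
  refine ⟨J, hJ, fun p j => ?_⟩
  have hle : ∀ d, hq I d ≤ (lev a d).card := fun d =>
    (step_of_good hmono ha hgood hf hreg hI hfI d).1
  have hJ' : ∀ d, grade J d = monSpace K (lppMono a (hq I d) d) := fun d =>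
    (hJ d).1.trans (lppSpace_eq (hle d))
  have hhq : ∀ d ≤ j, hq J d = hq I d := fun d _ => by simp only [hq, (hJ d).2]
  have h1 : betti I 1 j ≤ betti J 1 j := by
    cases j with
    | zero => rw [betti_one_zero]; exact Nat.zero_le _
    | succ d =>
      have hsubA : lppMono a (hq I d) d ⊆ allMon 3 d :=
        union_subset sdiff_subset ((filter_subset _ _).trans (lev_subset_allMon a d))
      have := finite_monSpace (K := K) (succMon d (lppMono a (hq I d) d))
      have hGJ := Submodule.finrank_mono (genSpace_mon hsubA (hJ' d))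
      rw [finrank_monSpace] at hGJ
      have hGI := gen_ge_three' ha hmono hf hreg hI hfI d
      have e1 := betti_one I d
      have e2 := betti_one J d
      have e3 := (hJ (d + 1)).2
      omega
  have h3 : betti I 3 j ≤ betti J 3 j := by
    rcases Nat.lt_or_ge j 3 with hj | hj
    · rw [betti_eq_zero I (Or.inr hj)]; exact Nat.zero_le _
    · obtain ⟨d, rfl⟩ : ∃ d, j = d + 3 := ⟨j - 3, by omega⟩
      have hs := soc_le hmono ha hgood hf hreg hI hfI hJ' d
      have e1 := betti_top I d
      have e2 := betti_top J d
      have e3 := (hJ d).2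
      omega
  match p with
  | 0 => exact (betti_zero_congr hhq).ge
  | 1 => exact h1
  | 2 => exact betti_two_le hhq h1 h3
  | 3 => exact h3
  | k + 4 => rw [betti_eq_zero I (Or.inl (by omega : 3 < k + 4))]; exact Nat.zero_le _

/-- A regular sequence of fewer forms than variables extends by a form of any degree. -/
lemma exists_snoc [Infinite K] {n : ℕ} {l : List (MvPolynomial (Fin n) K)} (hl : l.length < n)
    (hpos : ∀ g ∈ l, PosForm g) (hreg : RegMod ⊥ l) (N : ℕ) :
    ∃ g : MvPolynomial (Fin n) K, g.IsHomogeneous N ∧ NZD (Ideal.ofList l) g :=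
  exists_nzd _ (homogeneousSubmodule (Fin n) K N) fun _ _ hP hm hV =>
    not_all_X hl hpos hreg hP hm fun i => hP.mem_of_pow_mem N
      (hV _ (by simpa using (isHomogeneous_X K i).pow N))

/-- The exponents of the lex-plus-powers space of dimension `r` in degree `d`. -/
noncomputable def lpSet {n c : ℕ} (h : c ≤ n) (a : Fin c → ℕ) (d r : ℕ) : Set (Fin n →₀ ℕ) :=
  {m | m.degree = d ∧ (¬ OutN h a m ∨
    {m' : Fin n →₀ ℕ | m'.degree = d ∧ toLex m < toLex m' ∧ OutN h a m'}.ncard <
      r - {m : Fin n →₀ ℕ | m.degree = d ∧ ¬ OutN h a m}.ncard)}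

lemma lppSpaceN_eq_restrict {n c : ℕ} (h : c ≤ n) (a : Fin c → ℕ)
    (I : Ideal (MvPolynomial (Fin n) K)) (d : ℕ) :
    lppSpaceN (powersIdeal K h a) I d =
      restrictSupport K (lpSet h a d (finrank K ↥(grade I d))) := by
  rw [lppSpaceN, restrictSupport_eq_span, finrank_grade_powers]
  simp only [lpSet, monomial_mem_powersIdeal, not_not]

/-- An extra power of degree above `d` does not matter in degree `d`. -/
lemma lpSet_snoc {n c : ℕ} (h : c ≤ n) (h' : c + 1 ≤ n) (a : Fin c → ℕ) {d N : ℕ} (hd : d < N)
    (r : ℕ) : lpSet h' (Fin.snoc a N) d r = lpSet h a d r := by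
  have key : ∀ m : Fin n →₀ ℕ, m.degree = d → (OutN h' (Fin.snoc a N) m ↔ OutN h a m) := by
    intro m hm
    constructor
    · intro ho i
      have := ho i.castSucc
      rw [Fin.snoc_castSucc] at this
      exact this
    · intro ho i
      induction i using Fin.lastCases with
      | last =>
        rw [Fin.snoc_last]
        have := Finsupp.le_degree (Fin.castLE h' (Fin.last c)) m
        omega
      | cast i =>
        rw [Fin.snoc_castSucc]
        exact ho i
  have e1 : ∀ m : Fin n →₀ ℕ, {m' : Fin n →₀ ℕ | m'.degree = d ∧ toLex m < toLex m' ∧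
      OutN h' (Fin.snoc a N) m'} = {m' | m'.degree = d ∧ toLex m < toLex m' ∧ OutN h a m'} := by
    intro m
    ext m'
    exact and_congr_right fun h1 => and_congr_right fun _ => key m' h1
  have e2 : {m : Fin n →₀ ℕ | m.degree = d ∧ ¬ OutN h' (Fin.snoc a N) m} =
      {m | m.degree = d ∧ ¬ OutN h a m} := by
    ext m
    exact and_congr_right fun h1 => not_congr (key m h1)
  ext m
  simp only [lpSet, Set.mem_ofPred_eq, e1, e2]
  exact and_congr_right fun h1 => or_congr_left (not_congr (key m h1))

/-- A family of ideals with the lex-plus-powers parts in low degrees gives a monomial ideal with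
the Hilbert function. -/
lemma hasMon_of_family {n c : ℕ} (h : c ≤ n) (a : Fin c → ℕ)
    {I : Ideal (MvPolynomial (Fin n) K)} (J : ℕ → Ideal (MvPolynomial (Fin n) K))
    (hJ : ∀ e d, d ≤ e → grade (J e) d = lppSpaceN (powersIdeal K h a) I d ∧
      finrank K ↥(grade (J e) d) = finrank K ↥(grade I d)) : HasMon h a I := by
  classical
  have hmem : ∀ e d, d ≤ e → ∀ m : Fin n →₀ ℕ, m.degree = d →
      (monomial m (1 : K) ∈ J e ↔ m ∈ lpSet h a d (finrank K ↥(grade I d))) := by
    intro e d hde m hm
    have he := (hJ e d hde).1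
    rw [lppSpaceN_eq_restrict] at he
    constructor
    · intro hmm
      have : monomial m (1 : K) ∈ restrictSupport K (lpSet h a d (finrank K ↥(grade I d))) :=
        he ▸ (⟨hmm, isHomogeneous_monomial _ hm⟩ : monomial m (1 : K) ∈ grade (J e) d)
      simpa [monomial_mem_restrictSupport] using this
    · intro hmm
      have : monomial m (1 : K) ∈ grade (J e) d :=
        he.symm ▸ (by rw [monomial_mem_restrictSupport]; exact Or.inl hmm)
      exact this.1
  refine ⟨{m | monomial m (1 : K) ∈ J m.degree}, ?_, fun i => ?_, fun d => ?_⟩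
  · intro m m' hle hm
    obtain ⟨γ, rfl⟩ := exists_add_of_le hle
    show monomial (m + γ) (1 : K) ∈ J (m + γ).degree
    rw [← one_mul (1 : K), ← monomial_mul]
    refine (J _).mul_mem_right _ ?_
    exact (hmem _ m.degree (by rw [map_add]; omega) m rfl).2
      ((hmem _ m.degree le_rfl m rfl).1 hm)
  · refine (hmem _ _ le_rfl _ rfl).2 ⟨rfl, Or.inl fun ho => ?_⟩
    have := ho i
    simp at this
  · rw [← (hJ d d le_rfl).2, (hJ d d le_rfl).1, lppSpaceN_eq_restrict,
      finrank_restrictSupport_gen]
    congr 1
    ext m
    constructor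
    · rintro ⟨rfl, hm⟩
      exact (hmem _ _ le_rfl m rfl).1 hm
    · intro hm
      obtain ⟨rfl, -⟩ := id hm
      exact ⟨rfl, (hmem _ _ le_rfl m rfl).2 hm⟩

/-- From `c + 1` forms to `c` forms, over an infinite field. -/
lemma lppBetti_descend [Infinite K] {c : ℕ} (hc : c < 3) (hM : LppBetti K (c + 1)) :
    LppBetti K c := by
  classical
  intro h a ha hmono f hf hreg I hI hfI
  let N : ℕ → ℕ := fun e => e + 2 + ∑ i, a i
  have hpos : ∀ g ∈ List.ofFn f, PosForm g := by
    intro g hg
    obtain ⟨i, rfl⟩ := List.mem_ofFn.1 hg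
    exact ⟨a i, le_trans (by omega) (ha i), hf i⟩
  have hex := fun e => exists_snoc (l := List.ofFn f) (by simpa using hc) hpos hreg (N e)
  choose g hg hgn using hex
  let Ip : ℕ → Ideal (MvPolynomial (Fin 3) K) := fun e =>
    I ⊔ Ideal.span (homogeneousSubmodule (Fin 3) K (N e) : Set (MvPolynomial (Fin 3) K))
  have hlow : ∀ e d, d < N e → grade (Ip e) d = grade I d := by
    intro e d hd
    refine le_antisymm ?_ (inf_le_inf_right _ (le_sup_left (a := I)))
    rintro p ⟨hp, hpd⟩
    refine ⟨?_, hpd⟩
    obtain ⟨p1, hp1, p2, hp2, rfl⟩ := Submodule.mem_sup.1 hp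
    rw [← homogeneousComponent_eq_self hpd, map_add]
    refine I.add_mem (hI p1 hp1 _) ?_
    obtain ⟨M, w, x, hsum⟩ := Submodule.mem_span_set'.1 hp2
    rw [← hsum, map_sum]
    refine I.sum_mem fun k _ => ?_
    rw [smul_eq_mul, hcomp_mul (x k).2, if_neg (by omega)]
    exact I.zero_mem
  have hmain := fun e => hM hc (Fin.snoc a (N e))
    (fun i => by
      induction i using Fin.lastCases with
      | last => rw [Fin.snoc_last]; simp only [N]; omega
      | cast i => rw [Fin.snoc_castSucc]; exact ha i)
    (fun i k hik => by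
      induction k using Fin.lastCases with
      | last =>
        rw [Fin.snoc_last]
        induction i using Fin.lastCases with
        | last => rw [Fin.snoc_last]
        | cast i =>
          rw [Fin.snoc_castSucc]
          have := single_le_sum (f := a) (fun l _ => Nat.zero_le _) (mem_univ i)
          simp only [N]; omega
      | cast k =>
        induction i using Fin.lastCases with
        | last => exact absurd hik (not_le.2 (Fin.castSucc_lt_last k))
        | cast i =>
          rw [Fin.snoc_castSucc, Fin.snoc_castSucc]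
          exact hmono (Fin.castSucc_le_castSucc_iff.1 hik))
    (Fin.snoc f (g e))
    (fun i => by
      induction i using Fin.lastCases with
      | last => rw [Fin.snoc_last, Fin.snoc_last]; exact hg e
      | cast i => rw [Fin.snoc_castSucc, Fin.snoc_castSucc]; exact hf i)
    (by
      rw [List.ofFn_succ', List.concat_eq_append]
      simp only [Fin.snoc_castSucc, Fin.snoc_last]
      exact regMod_append.2 ⟨hreg, by rw [bot_sup_eq]; exact hgn e, trivial⟩)
    (Ip e) (closed_sup_span_forms hI fun x hx => hx)
    (fun i => by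
      induction i using Fin.lastCases with
      | last =>
        rw [Fin.snoc_last]; exact Submodule.mem_sup_right (Ideal.subset_span (hg e))
      | cast i => rw [Fin.snoc_castSucc]; exact Submodule.mem_sup_left (hfI i))
  choose J hJ hJb using hmain
  have hJlow : ∀ e d, d ≤ e → grade (J e) d = lppSpaceN (powersIdeal K h a) I d ∧
      finrank K ↥(grade (J e) d) = finrank K ↥(grade I d) := by
    intro e d hde
    have hd : d < N e := by simp only [N]; omega
    refine ⟨?_, by rw [(hJ e d).2, hlow e d hd]⟩
    rw [(hJ e d).1, lppSpaceN_eq_restrict, lppSpaceN_eq_restrict, hlow e d hd,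
      lpSet_snoc h hc a hd]
  obtain ⟨J', hJ'⟩ := exists_lpp_of_hasMon h hmono (hasMon_of_family h a J hJlow)
  refine ⟨J', hJ', fun p j => ?_⟩
  rw [← betti_congr_low (I := I) (fun e he => hlow j e (by simp only [N]; omega)) p,
    betti_congr_low (I := J j) (J := J')
      (fun e he => (hJ' e).1.trans (hJlow j e he).1.symm) p]
  exact hJb j p j

/-- All numbers of forms, over an infinite field. -/
theorem lppBetti_infinite [Infinite K] : ∀ c, LppBetti K c := by
  have h3 : LppBetti K 3 := lppBetti_three
  have h2 := lppBetti_descend (by norm_num) h3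
  have h1 := lppBetti_descend (by norm_num) h2
  have h0 := lppBetti_descend (by norm_num) h1
  intro c h
  rcases (show c = 0 ∨ c = 1 ∨ c = 2 ∨ c = 3 by omega) with rfl | rfl | rfl | rfl
  exacts [h0 h, h1 h, h2 h, h3 h]

section BaseChange

variable {L : Type*} [Field L] [Algebra K L]

/-- The socle extends along field extensions. -/
lemma finrank_soc_baseChange {n : ℕ} (I : Ideal (MvPolynomial (Fin n) K)) (d : ℕ) :
    finrank L ↥(socSpace (I.map (MvPolynomial.map (algebraMap K L))) d) =
      finrank K ↥(socSpace I d) := by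
  have := finite_hom (K := K) (n := n) d
  have : FiniteDimensional K ↥(socSpace I d) := Submodule.finiteDimensional_of_le inf_le_left
  have heq : socSpace (I.map (MvPolynomial.map (algebraMap K L))) d = spanL L (socSpace I d) := by
    ext p
    rw [mem_spanL_iff, mem_socSpace]
    simp only [mem_socSpace]
    constructor
    · rintro ⟨hp, hX⟩ π
      refine ⟨fun m hm => ?_, fun i => ?_⟩
      · rw [coeff_coeffMap] at hm
        exact hp fun h0 => hm (by rw [h0, map_zero])
      · have := mem_spanL_iff.1 (mem_map_iff_spanL.1 (hX i)) π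
        rwa [show (X i : MvPolynomial (Fin n) L) = MvPolynomial.map (algebraMap K L) (X i) from
          (map_X _ i).symm, coeffMap_map_mul] at this
    · intro h
      refine ⟨fun m hm => ?_, fun i => mem_map_iff_spanL.2 (mem_spanL_iff.2 fun π => ?_)⟩
      · obtain ⟨π, hπ⟩ : ∃ π : L →ₗ[K] K, π (coeff m p) ≠ 0 := by
          by_contra hcon
          simp only [not_exists, not_not] at hcon
          exact hm ((Module.forall_dual_apply_eq_zero_iff K (coeff m p)).1 hcon)
        exact (h π).1 (by rwa [coeff_coeffMap])
      · rw [show (X i : MvPolynomial (Fin n) L) = MvPolynomial.map (algebraMap K L) (X i) from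
          (map_X _ i).symm, coeffMap_map_mul]
        exact (h π).2 i
  rw [heq, finrank_spanL]

/-- The forms spanned by one graded piece extend along field extensions. -/
lemma span_grade_baseChange {n : ℕ} (I : Ideal (MvPolynomial (Fin n) K)) (d : ℕ) :
    Ideal.span (grade (I.map (MvPolynomial.map (algebraMap K L))) d :
      Set (MvPolynomial (Fin n) L)) =
      (Ideal.span (grade I d : Set (MvPolynomial (Fin n) K))).map
        (MvPolynomial.map (algebraMap K L)) := by
  set φ := MvPolynomial.map (σ := Fin n) (algebraMap K L)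
  set G := Ideal.span (grade I d : Set (MvPolynomial (Fin n) K))
  have hGd : grade G d = grade I d := le_antisymm
    (inf_le_inf_right _ (Ideal.span_le.2 fun x hx => hx.1))
    fun p hp => ⟨Ideal.subset_span hp, hp.2⟩
  have heq : grade (G.map φ) d = grade (I.map φ) d := by
    have := finite_grade (I.map φ) d
    refine Submodule.eq_of_le_of_finrank_le
      (inf_le_inf_right _ (Ideal.map_mono (Ideal.span_le.2 fun x hx => hx.1))) ?_
    rw [finrank_grade_baseChange, finrank_grade_baseChange, hGd]
  refine le_antisymm (Ideal.span_le.2 fun x hx => (heq.symm ▸ hx : x ∈ grade (G.map φ) d).1) ?_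
  rw [Ideal.map_le_iff_le_comap, Ideal.span_le]
  exact fun x hx => Ideal.subset_span ⟨Ideal.mem_map_of_mem _ hx.1, hx.2.map _⟩

lemma hq_baseChange (I : Ideal (MvPolynomial (Fin 3) K)) (d : ℕ) :
    hq (I.map (MvPolynomial.map (algebraMap K L))) d = hq I d := by
  simp only [hq, finrank_grade_baseChange, finrank_hom_three]

/-- Betti numbers do not change along field extensions. -/
theorem betti_baseChange (I : Ideal (MvPolynomial (Fin 3) K)) (p j : ℕ) :
    betti (I.map (MvPolynomial.map (algebraMap K L))) p j = betti I p j := by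
  set IL := I.map (MvPolynomial.map (algebraMap K L))
  have hhq : ∀ e ≤ j, hq IL e = hq I e := fun e _ => hq_baseChange I e
  have h1 : betti IL 1 j = betti I 1 j := by
    cases j with
    | zero => rw [betti_one_zero, betti_one_zero]
    | succ e =>
      have hJ := betti_one IL e
      have hI := betti_one I e
      rw [span_grade_baseChange, finrank_grade_baseChange, finrank_grade_baseChange] at hJ
      omega
  have h3 : betti IL 3 j = betti I 3 j := by
    rcases Nat.lt_or_ge j 3 with hj | hj
    · rw [betti_eq_zero IL (Or.inr hj), betti_eq_zero I (Or.inr hj)]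
    · obtain ⟨e, rfl⟩ : ∃ e, j = e + 3 := ⟨j - 3, by omega⟩
      have hJ := betti_top IL e
      have hI := betti_top I e
      rw [finrank_grade_baseChange, finrank_soc_baseChange] at hJ
      omega
  match p with
  | 0 => exact betti_zero_congr hhq
  | 1 => exact h1
  | 2 =>
    exact le_antisymm (betti_two_le (fun e he => (hhq e he).symm) h1.le h3.le)
      (betti_two_le hhq h1.ge h3.ge)
  | 3 => exact h3
  | k + 4 =>
    rw [betti_eq_zero IL (Or.inl (by omega : 3 < k + 4)),
      betti_eq_zero I (Or.inl (by omega : 3 < k + 4))]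

end BaseChange

/-- The lex-plus-powers conjecture in three variables, over every field. -/
theorem lppBetti_all (c : ℕ) : LppBetti K c := by
  classical
  intro h a ha hmono f hf hreg I hI hfI
  let L := RatFunc K
  have : Infinite L := Infinite.of_injective _ (RatFunc.algebraMap_injective K)
  let φ := MvPolynomial.map (σ := Fin 3) (algebraMap K L)
  have hregL : RegMod ⊥ (List.ofFn fun i => φ (f i)) := by
    have := RegMod.baseChange (L := L) _ _ hreg
    rw [Ideal.map_bot, List.map_ofFn] at this
    exact this
  obtain ⟨JL, hJL, hJLb⟩ := lppBetti_infinite (K := L) c h a ha hmono (fun i => φ (f i))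
    (fun i => (hf i).map _) hregL (I.map φ) (Closed.baseChange hI)
    (fun i => Ideal.mem_map_of_mem _ (hfI i))
  obtain ⟨S, hS, hpow, hcount⟩ := hasMon_of_family h a (fun _ => JL) fun _ d _ => hJL d
  obtain ⟨J, hJ⟩ := exists_lpp_of_hasMon h hmono (I := I)
    ⟨S, hS, hpow, fun d => (hcount d).trans (finrank_grade_baseChange I d)⟩
  refine ⟨J, hJ, fun p j => ?_⟩
  have hgrade : ∀ e, grade (J.map φ) e = grade JL e := by
    intro e
    rw [(hJL e).1, lppSpaceN_eq_restrict, finrank_grade_baseChange]
    have := finite_grade (J.map φ) e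
    refine (Submodule.eq_of_le_of_finrank_le ?_ ?_).symm
    · rw [restrictSupport_eq_span, Submodule.span_le]
      rintro _ ⟨m, hm, rfl⟩
      have : monomial m (1 : K) ∈ grade J e := by
        rw [(hJ e).1, lppSpaceN_eq_restrict, monomial_mem_restrictSupport]
        exact Or.inl hm
      have h1 := Ideal.mem_map_of_mem φ this.1
      rw [map_monomial, map_one] at h1
      exact ⟨h1, isHomogeneous_monomial _ hm.1⟩
    · rw [finrank_grade_baseChange, (hJ e).1, lppSpaceN_eq_restrict, finrank_restrictSupport_gen,
        finrank_restrictSupport_gen]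
  rw [← betti_baseChange (L := L) I, ← betti_baseChange (L := L) J,
    betti_congr_low (I := JL) (J := J.map φ) (fun e _ => hgrade e) p]
  exact hJLb p j

end Vale.P200.Betti
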