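import Vale.Agent.P200.Betti.Defs
import Vale.Agent.P200.Ext.CI

/-!
P200, Betti numbers: Koszul homology in homological degrees 0, 1 and n, and the Euler relation.
-/

namespace Vale.P200.Betti

open MvPolynomial Module Finset Vale.P200.Ext

universe u

variable {K : Type u} [Field K] {n : ℕ}

/-- Rank and nullity on a subspace. -/
lemma finrank_inf_ker_add {V W : Type*} [AddCommGroup V] [Module K V] [AddCommGroup W] [Module K W]
    (f : V →ₗ[K] W) (C : Submodule K V) [FiniteDimensional K C] :
    finrank K ↥(C ⊓ LinearMap.ker f) + finrank K ↥(C.map f) = finrank K C := by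
  have h := LinearMap.finrank_range_add_finrank_ker (f.domRestrict C)
  have hk : LinearMap.ker (f.domRestrict C) = Submodule.comap C.subtype (C ⊓ LinearMap.ker f) := by
    ext ⟨x, hx⟩
    exact ⟨fun h0 => ⟨hx, h0⟩, fun h0 => h0.2⟩
  rw [LinearMap.range_domRestrict, hk,
    (Submodule.comapSubtypeEquivOfLe (inf_le_left : C ⊓ LinearMap.ker f ≤ C)).finrank_eq] at h
  omega

variable (I : Ideal (MvPolynomial (Fin n) K))

lemma finite_quotPart (d : ℕ) : FiniteDimensional K ↥(quotPart I d) := by
  have := finite_hom (K := K) (n := n) d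
  exact Module.Finite.map _ _

lemma finrank_quotPart (d : ℕ) : finrank K ↥(quotPart I d) = hq I d := by
  have := finite_hom (K := K) (n := n) d
  set π := (Ideal.Quotient.mkₐ K I).toLinearMap
  have h := finrank_inf_ker_add π (homogeneousSubmodule (Fin n) K d)
  have hk : homogeneousSubmodule (Fin n) K d ⊓ LinearMap.ker π = grade I d := by
    ext p
    exact ⟨fun h => ⟨Ideal.Quotient.eq_zero_iff_mem.1 h.2, h.1⟩,
      fun h => ⟨h.2, Ideal.Quotient.eq_zero_iff_mem.2 h.1⟩⟩
  rw [hk] at h
  show finrank K ↥((homogeneousSubmodule (Fin n) K d).map π) = _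
  simp only [hq]
  omega

lemma finite_chainValues (p j : ℕ) :
    FiniteDimensional K ↥(if p ≤ j then quotPart I (j - p) else ⊥) := by
  by_cases hp : p ≤ j
  · rw [if_pos hp]; exact finite_quotPart I _
  · rw [if_neg hp]; infer_instance

lemma finite_chains (p j : ℕ) : FiniteDimensional K ↥(koszulChains I p j) :=
  have := finite_chainValues I p j
  finite_suppOn p _

lemma finrank_chains (p j : ℕ) :
    finrank K ↥(koszulChains I p j) = n.choose p * if p ≤ j then hq I (j - p) else 0 := by
  have := finite_chainValues I p j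
  rw [koszulChains, finrank_suppOn]
  by_cases hp : p ≤ j
  · rw [if_pos hp, if_pos hp, finrank_quotPart]
  · rw [if_neg hp, if_neg hp, finrank_bot]

lemma mul_mem_quotPart {d : ℕ} (i : Fin n) {z : MvPolynomial (Fin n) K ⧸ I}
    (hz : z ∈ quotPart I d) : Ideal.Quotient.mk I (X i) * z ∈ quotPart I (d + 1) := by
  obtain ⟨p, hp, rfl⟩ := hz
  refine ⟨X i * p, ?_, map_mul (Ideal.Quotient.mkₐ K I) (X i) p⟩
  rw [add_comm]
  exact (isHomogeneous_X K i).mul hp

lemma map_chains_le (p j : ℕ) :
    (koszulChains I (p + 1) j).map (koszulD I) ≤ koszulChains I p j := by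
  rintro _ ⟨f, hf, rfl⟩
  obtain ⟨hf1, hf0⟩ := mem_suppOn.1 hf
  refine mem_suppOn.2 ⟨fun U hU => ?_, fun U hU => ?_⟩
  · rw [koszulD, kd_apply]
    refine Submodule.sum_mem _ fun i hi => ?_
    have hcard : (insert i U).card = p + 1 := by
      rw [card_insert_of_notMem (mem_compl.1 hi), hU]
    have h := hf1 _ hcard
    by_cases hpj : p + 1 ≤ j
    · rw [if_pos hpj] at h
      rw [if_pos (by omega), mul_assoc, show j - p = j - (p + 1) + 1 by omega]
      rcases neg_one_pow_eq_or (MvPolynomial (Fin n) K ⧸ I) (U.filter (· < i)).card with h1 | h1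
      · simpa [sgn, h1] using mul_mem_quotPart I i h
      · simpa [sgn, h1] using Submodule.neg_mem _ (mul_mem_quotPart I i h)
    · rw [if_neg hpj, Submodule.mem_bot] at h
      simp [h]
  · rw [koszulD, kd_apply]
    refine Finset.sum_eq_zero fun i hi => ?_
    rw [hf0 _ (by rw [card_insert_of_notMem (mem_compl.1 hi)]; omega), mul_zero]

lemma map_chains_le_ker (p j : ℕ) :
    (koszulChains I (p + 1) j).map (koszulD I) ≤ koszulChains I p j ⊓ LinearMap.ker (koszulD I) :=
  le_inf (map_chains_le I p j) fun x hx => by
    obtain ⟨f, -, rfl⟩ := hx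
    exact kd_kd _ f

/-- The homology and the boundaries make up the cycles. -/
lemma betti_add (p j : ℕ) :
    betti I p j + finrank K ↥((koszulChains I (p + 1) j).map (koszulD I)) =
      finrank K ↥(koszulChains I p j ⊓ LinearMap.ker (koszulD I)) := by
  have := finite_chains I p j
  have : FiniteDimensional K ↥(koszulChains I p j ⊓ LinearMap.ker (koszulD I)) :=
    Submodule.finiteDimensional_of_le inf_le_left
  have := Submodule.finrank_mono (map_chains_le_ker I p j)
  unfold betti
  omega

/-- Every chain of homological degree `0` is a cycle. -/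
lemma cycles_zero (j : ℕ) :
    koszulChains I 0 j ⊓ LinearMap.ker (koszulD I) = koszulChains I 0 j := by
  refine inf_eq_left.2 fun f hf => ?_
  obtain ⟨-, hf0⟩ := mem_suppOn.1 hf
  refine LinearMap.mem_ker.2 (funext fun U => ?_)
  rw [koszulD, kd_apply]
  exact Finset.sum_eq_zero fun i hi => by
    rw [hf0 _ (by rw [card_insert_of_notMem (mem_compl.1 hi)]; omega), mul_zero]

/-- The boundaries in homological degree `0`. -/
lemma finrank_boundary_zero (j : ℕ) :
    finrank K ↥((koszulChains I 1 j).map (koszulD I)) = if 1 ≤ j then hq I j else 0 := by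
  split_ifs with hj
  · have hle := map_chains_le I 0 j
    have heq : (koszulChains I (0 + 1) j).map (koszulD I) = koszulChains I 0 j := by
      refine le_antisymm hle fun f hf => ?_
      obtain ⟨hf1, hf0⟩ := mem_suppOn.1 hf
      have h := hf1 ∅ rfl
      rw [if_pos (Nat.zero_le _)] at h
      obtain ⟨p, hp, hpf⟩ := h
      -- split `p` along the variables
      have hsplit : p ∈ Submodule.span K {q | ∃ i, ∃ r : MvPolynomial (Fin n) K,
          r.IsHomogeneous (j - 1) ∧ q = X i * r} := by
        rw [p.as_sum]
        refine Submodule.sum_mem _ fun δ hδ => ?_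
        have hdeg : δ.degree = j - 0 := by
          by_contra hne
          exact mem_support_iff.1 hδ (IsHomogeneous.coeff_eq_zero hp hne)
        obtain ⟨i, hi⟩ : ∃ i, δ i ≠ 0 := by
          by_contra hh
          simp only [not_exists, not_not] at hh
          rw [show δ = 0 from Finsupp.ext hh, map_zero] at hdeg
          omega
        refine Submodule.subset_span ⟨i, monomial (δ - Finsupp.single i 1) (coeff δ p), ?_, ?_⟩
        · refine isHomogeneous_monomial _ ?_
          have := congrArg Finsupp.degree
            (tsub_add_cancel_of_le (Finsupp.single_le_iff.2 (by omega : 1 ≤ δ i)))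
          rw [map_add, Finsupp.degree_single] at this
          omega
        · rw [mul_comm, ← pow_one (X i), ← monomial_add_single,
            tsub_add_cancel_of_le (Finsupp.single_le_iff.2 (by omega : 1 ≤ δ i))]
      -- each summand is a boundary
      let G : (Finset (Fin n) → MvPolynomial (Fin n) K ⧸ I) →ₗ[K] MvPolynomial (Fin n) K ⧸ I :=
        LinearMap.proj ∅
      have hmem : f ∅ ∈ ((koszulChains I (0 + 1) j).map (koszulD I)).map G := by
        rw [← hpf]
        refine Submodule.mem_comap.1 ?_
        refine Submodule.span_le.2 ?_ hsplit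
        rintro q ⟨i, r, hr, rfl⟩
        let g : Finset (Fin n) → MvPolynomial (Fin n) K ⧸ I :=
          fun U => if U = {i} then Ideal.Quotient.mk I r else 0
        refine ⟨koszulD I g, ⟨g, mem_suppOn.2 ⟨fun U hU => ?_, fun U hU => ?_⟩, rfl⟩, ?_⟩
        · rw [if_pos (by omega)]
          simp only [g]
          split_ifs
          · exact ⟨r, hr, rfl⟩
          · exact zero_mem _
        · have : U ≠ {i} := fun h => hU (by simp [h])
          simp [g, this]
        · show koszulD I g ∅ = _
          rw [koszulD, kd_apply, Finset.sum_eq_single i]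
          · simp [g, sgn]
          · intro k _ hki
            simp [g, hki]
          · simp
      obtain ⟨_, ⟨g, hg, rfl⟩, hgf⟩ := hmem
      refine ⟨g, hg, funext fun U => ?_⟩
      by_cases hU : U = ∅
      · subst hU; exact hgf
      · have hU' : U.card ≠ 0 := fun h => hU (card_eq_zero.1 h)
        rw [hf0 U hU', (mem_suppOn.1 (hle ⟨g, hg, rfl⟩)).2 U hU']
    rw [heq, finrank_chains, if_pos (Nat.zero_le _), Nat.choose_zero_right, one_mul, Nat.sub_zero]
  · have : koszulChains I 1 j = ⊥ := by
      rw [Submodule.eq_bot_iff]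
      intro f hf
      obtain ⟨hf1, hf0⟩ := mem_suppOn.1 hf
      funext U
      by_cases hU : U.card = 1
      · simpa [if_neg hj] using hf1 U hU
      · exact hf0 U hU
    rw [this, Submodule.map_bot, finrank_bot]

/-- The Koszul complex of the variables on `S` is exact in homological degree `1`. -/
lemma exact_one (j : ℕ) {f : Finset (Fin n) → MvPolynomial (Fin n) K}
    (hf : f ∈ suppOn K 1 (homogeneousSubmodule (Fin n) K (j + 1))) (h0 : kd K X f = 0) :
    f ∈ (suppOn K 2 (homogeneousSubmodule (Fin n) K j)).map (kd K X) := by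
  suffices ∀ k, ∀ f ∈ suppOn K 1 (homogeneousSubmodule (Fin n) K (j + 1)), kd K X f = 0 →
      (∀ i : Fin n, k ≤ i.val → f {i} = 0) →
      f ∈ (suppOn K 2 (homogeneousSubmodule (Fin n) K j)).map (kd K X) from
    this n f hf h0 fun i hi => absurd i.2 (by omega)
  intro k
  induction k with
  | zero =>
    intro f hf _ hz
    convert zero_mem ((suppOn K 2 (homogeneousSubmodule (Fin n) K j)).map (kd K X))
    funext U
    by_cases hU : U.card = 1
    · obtain ⟨i, rfl⟩ := card_eq_one.1 hU
      exact hz i (Nat.zero_le _)
    · exact (mem_suppOn.1 hf).2 U hU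
  | succ k ih =>
    intro f hf h0 hz
    by_cases hk : k < n
    swap
    · exact ih f hf h0 fun i hi => absurd i.2 (by omega)
    set t : Fin n := ⟨k, hk⟩ with ht
    obtain ⟨hf1, hf2⟩ := mem_suppOn.1 hf
    have hsum : ∑ i, X i * f {i} = 0 := by
      have := congrFun h0 ∅
      simpa [kd_apply, sgn] using this
    -- `f {t}` lies in the ideal of the earlier variables
    have hmem : f {t} ∈ Submodule.span K {q | ∃ i < t, ∃ r : MvPolynomial (Fin n) K,
        r.IsHomogeneous j ∧ q = X i * r} := by
      rw [(f {t}).as_sum]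
      refine Submodule.sum_mem _ fun δ hδ => ?_
      obtain ⟨i, hit, hi⟩ : ∃ i < t, δ i ≠ 0 := by
        by_contra hh
        simp only [not_exists, not_and, not_not] at hh
        have h1 := congrArg (coeff (Finsupp.single t 1 + δ)) hsum
        rw [coeff_sum, coeff_zero, Finset.sum_eq_single t, coeff_X_mul] at h1
        · exact mem_support_iff.1 hδ h1
        · intro i _ hit
          rcases lt_trichotomy i t with h | h | h
          · classical
            rw [coeff_X_mul', if_neg]
            simp [hh i h, (Ne.symm hit)]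
          · exact absurd h hit
          · have hv : k < i.val := h
            rw [hz i (by omega), mul_zero, coeff_zero]
        · simp
      refine Submodule.subset_span ⟨i, hit, monomial (δ - Finsupp.single i 1) (coeff δ (f {t})),
        ?_, ?_⟩
      · refine isHomogeneous_monomial _ ?_
        have hdeg : δ.degree = j + 1 := by
          by_contra hne
          exact mem_support_iff.1 hδ
            (IsHomogeneous.coeff_eq_zero (hf1 {t} (card_singleton t)) hne)
        have := congrArg Finsupp.degree
          (tsub_add_cancel_of_le (Finsupp.single_le_iff.2 (by omega : 1 ≤ δ i)))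
        rw [map_add, Finsupp.degree_single] at this
        omega
      · rw [mul_comm, ← pow_one (X i), ← monomial_add_single,
          tsub_add_cancel_of_le (Finsupp.single_le_iff.2 (by omega : 1 ≤ δ i))]
    -- a boundary with the same value at `{t}` and zero beyond
    let B : Submodule K (Finset (Fin n) → MvPolynomial (Fin n) K) :=
      (suppOn K 2 (homogeneousSubmodule (Fin n) K j)).map (kd K X) ⊓
        ⨅ (i : Fin n) (_ : t < i), LinearMap.ker (LinearMap.proj ({i} : Finset (Fin n)))
    have hb : f {t} ∈ B.map (LinearMap.proj ({t} : Finset (Fin n))) := by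
      refine (Submodule.span_le (p := B.map (LinearMap.proj ({t} : Finset (Fin n))))).2 ?_ hmem
      rintro q ⟨i, hit, r, hr, rfl⟩
      let g : Finset (Fin n) → MvPolynomial (Fin n) K := fun U => if U = {i, t} then r else 0
      have hg : g ∈ suppOn K 2 (homogeneousSubmodule (Fin n) K j) :=
        mem_suppOn.2 ⟨fun U _ => by
          simp only [g]; split_ifs
          · exact hr
          · exact zero_mem _,
          fun U hU => by
            have : U ≠ {i, t} := fun h => hU (by rw [h, card_pair hit.ne])
            simp [g, this]⟩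
      refine ⟨kd K X g, ⟨⟨g, hg, rfl⟩, ?_⟩, ?_⟩
      · simp only [SetLike.mem_coe, Submodule.mem_iInf, LinearMap.mem_ker, LinearMap.proj_apply, kd_apply]
        intro l hl
        refine Finset.sum_eq_zero fun m _ => ?_
        have : insert m {l} ≠ ({i, t} : Finset (Fin n)) := fun h => by
          have hl' : l ∈ ({i, t} : Finset (Fin n)) := h ▸ by simp
          simp only [Finset.mem_insert, Finset.mem_singleton] at hl'
          rcases hl' with rfl | rfl
          · exact absurd (hl.trans hit) (lt_irrefl _)
          · exact absurd hl (lt_irrefl _)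
        simp [g, this]
      · show kd K X g {t} = _
        rw [kd_apply, Finset.sum_eq_single i]
        · have hs : sgn (MvPolynomial (Fin n) K) i {t} = 1 := by
            simp [sgn, Finset.filter_singleton, not_lt.2 hit.le]
          simp [g, hs]
        · intro m hm hmi
          have hmt : m ≠ t := by simpa using hm
          have : insert m {t} ≠ ({i, t} : Finset (Fin n)) := fun h => by
            have hm' : m ∈ ({i, t} : Finset (Fin n)) := h ▸ Finset.mem_insert_self _ _
            simp only [Finset.mem_insert, Finset.mem_singleton] at hm'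
            exact hm'.elim hmi hmt
          simp [g, this]
        · intro h; simp [hit.ne] at h
    obtain ⟨b, ⟨hb1, hb2⟩, hbt⟩ := hb
    obtain ⟨g, hg, rfl⟩ := hb1
    have hb1' : kd K X g ∈ suppOn K 1 (homogeneousSubmodule (Fin n) K (j + 1)) := by
      obtain ⟨hg1, hg0⟩ := mem_suppOn.1 hg
      refine mem_suppOn.2 ⟨fun U hU => ?_, fun U hU => ?_⟩
      · rw [kd_apply]
        refine Submodule.sum_mem _ fun i hi => ?_
        have h := hg1 _ (by rw [card_insert_of_notMem (mem_compl.1 hi), hU])
        have h' : (X i * g (insert i U)).IsHomogeneous (j + 1) := by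
          rw [add_comm]; exact (isHomogeneous_X K i).mul h
        rw [mul_assoc]
        rcases neg_one_pow_eq_or (MvPolynomial (Fin n) K) (U.filter (· < i)).card with h1 | h1
        · simpa [sgn, h1] using h'
        · simpa [sgn, h1] using h'
      · rw [kd_apply]
        refine Finset.sum_eq_zero fun i hi => ?_
        rw [hg0 _ (by rw [card_insert_of_notMem (mem_compl.1 hi)]; omega), mul_zero]
    have := ih (f - kd K X g) (sub_mem hf hb1') (by rw [map_sub, h0, kd_kd, sub_zero]) fun i hi => by
      rcases (show t ≤ i from hi).eq_or_lt with h | h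
      · subst h
        simp only [Pi.sub_apply]
        rw [show kd K X g {t} = f {t} from hbt, sub_self]
      · have hgi : kd K X g {i} = 0 := by
          simp only [SetLike.mem_coe, Submodule.mem_iInf, LinearMap.mem_ker,
            LinearMap.proj_apply] at hb2
          exact hb2 i h
        have hv : k < i.val := h
        simp [hgi, hz i (by omega)]
    have hh := add_mem this (Submodule.mem_map_of_mem (f := kd K X) hg)
    rwa [sub_add_cancel] at hh

/-- The forms of degree `j + 1` in the ideal of `I_j` are boundaries of `I_j`. -/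
lemma genSpace_le (j : ℕ) :
    grade (Ideal.span (grade I j : Set (MvPolynomial (Fin n) K))) (j + 1) ≤
      (suppOn (n := n) K 1 (grade I j)).map ((LinearMap.proj ∅).comp (kd K X)) := by
  rintro p ⟨hp, hpd⟩
  have hlin : ∀ (s y : MvPolynomial (Fin n) K), y ∈ grade I j → s.IsHomogeneous 1 →
      s * y ∈ (suppOn (n := n) K 1 (grade I j)).map ((LinearMap.proj ∅).comp (kd K X)) := by
    intro s y hy hs
    rw [s.as_sum, Finset.sum_mul]
    refine Submodule.sum_mem _ fun δ hδ => ?_
    have hdeg : δ.degree = 1 := by
      by_contra hne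
      exact mem_support_iff.1 hδ (hs.coeff_eq_zero hne)
    obtain ⟨i, hi⟩ : ∃ i, δ i ≠ 0 := by
      by_contra hh
      simp only [not_exists, not_not] at hh
      rw [show δ = 0 from Finsupp.ext hh, map_zero] at hdeg
      omega
    have h1 := tsub_add_cancel_of_le (Finsupp.single_le_iff.2 (by omega : 1 ≤ δ i))
    have h2 := congrArg Finsupp.degree h1
    rw [map_add, Finsupp.degree_single] at h2
    have h3 : (δ - Finsupp.single i 1).degree = 0 := by omega
    rw [Finsupp.degree_eq_zero_iff] at h3
    rw [h3, zero_add] at h1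
    subst h1
    refine ⟨fun U => if U = {i} then MvPolynomial.C (coeff (Finsupp.single i 1) s) * y else 0,
      mem_suppOn.2 ⟨fun U _ => ?_, fun U hU => if_neg fun h => hU (by simp [h])⟩, ?_⟩
    · split_ifs
      · rw [← smul_eq_C_mul]; exact Submodule.smul_mem _ _ hy
      · exact zero_mem _
    · rw [LinearMap.comp_apply, LinearMap.proj_apply]
      rw [kd_apply, Finset.sum_eq_single i]
      · have : sgn (MvPolynomial (Fin n) K) i (∅ : Finset (Fin n)) = 1 := by simp [sgn]
        simp only [this, one_mul, insert_empty_eq, if_true]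
        rw [← mul_assoc, mul_comm (X i), C_mul_X_eq_monomial]
      · intro k _ hki
        simp [hki]
      · simp
  obtain ⟨N, w, g, hsum⟩ := Submodule.mem_span_set'.1 hp
  rw [← homogeneousComponent_eq_self hpd, ← hsum, map_sum]
  refine Submodule.sum_mem _ fun k _ => ?_
  have hx' : (g k : MvPolynomial (Fin n) K) ∈ grade I j := (g k).2
  rw [smul_eq_mul, hcomp_mul hx'.2, if_pos (by omega), Nat.add_sub_cancel_left]
  exact hlin _ _ hx' (homogeneousComponent_isHomogeneous _ _)

/-- `β₁` counts the minimal generators: `β_{1,j+1} + dim (S₁ I_j) = dim I_{j+1}`. -/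
theorem betti_one (j : ℕ) :
    betti I 1 (j + 1) + finrank K ↥(grade (Ideal.span (grade I j : Set (MvPolynomial (Fin n) K))) (j + 1))
      = finrank K ↥(grade I (j + 1)) := by
  set π := (Ideal.Quotient.mkₐ K I).toLinearMap with hπ
  let P : (Finset (Fin n) → MvPolynomial (Fin n) K) →ₗ[K]
      (Finset (Fin n) → MvPolynomial (Fin n) K ⧸ I) := LinearMap.pi fun U => π.comp (LinearMap.proj U)
  have hPkd : ∀ f, koszulD I (P f) = P (kd K X f) := fun f => funext fun U => by
    show kd K (fun i => Ideal.Quotient.mk I (X i)) (P f) U = π (kd K X f U)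
    rw [kd_apply, kd_apply, map_sum]
    refine Finset.sum_congr rfl fun i _ => ?_
    show _ * _ * π (f (insert i U)) = (Ideal.Quotient.mkₐ K I) (sgn _ i U * X i * f (insert i U))
    rw [map_mul, map_mul]
    simp only [sgn, map_pow, map_neg, map_one]
    rfl
  set H : ℕ → Submodule K (MvPolynomial (Fin n) K) := fun e => homogeneousSubmodule (Fin n) K e
  have hsupp : ∀ p e, (suppOn (n := n) K p (H e)).map P = suppOn K p (quotPart I e) := by
    intro p e
    apply le_antisymm
    · rintro _ ⟨f, hf, rfl⟩
      obtain ⟨h1, h2⟩ := mem_suppOn.1 hf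
      refine mem_suppOn.2 ⟨fun U hU => ⟨f U, h1 U hU, rfl⟩, fun U hU => ?_⟩
      show π (f U) = 0
      rw [h2 U hU, map_zero]
    · intro f hf
      obtain ⟨h1, h2⟩ := mem_suppOn.1 hf
      choose g hg hgf using fun U : {U : Finset (Fin n) // U.card = p} => h1 U.1 U.2
      refine ⟨fun U => if hU : U.card = p then g ⟨U, hU⟩ else 0, mem_suppOn.2
        ⟨fun U hU => by simp only [dif_pos hU]; exact hg _, fun U hU => by simp [hU]⟩,
        funext fun U => ?_⟩
      show π (if hU : U.card = p then g ⟨U, hU⟩ else 0) = f U
      split_ifs with hU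
      · exact hgf ⟨U, hU⟩
      · rw [map_zero, h2 U hU]
  let N := suppOn (n := n) K 1 (grade I j)
  let Cn := suppOn (n := n) K 1 (H j)
  have := finite_hom (K := K) (n := n) j
  have := finite_suppOn (n := n) (K := K) 1 (H j)
  have := finite_grade I (j + 1)
  have hC1 : koszulChains I 1 (j + 1) = Cn.map P := by
    rw [koszulChains, if_pos (by omega), Nat.add_sub_cancel, hsupp]
  -- the lifts of the cycles
  let E : Submodule K (Finset (Fin n) → MvPolynomial (Fin n) K) :=
    Cn ⊓ ((grade I (j + 1)).comap ((LinearMap.proj ∅).comp (kd K X)))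
  have : FiniteDimensional K E := Submodule.finiteDimensional_of_le inf_le_left
  have hkd0 : ∀ f ∈ Cn, ∀ U : Finset (Fin n), U ≠ ∅ → kd K X f U = 0 := fun f hf U hU => by
    rw [kd_apply]
    refine Finset.sum_eq_zero fun i hi => ?_
    have : (insert i U).card ≠ 1 := by
      rw [card_insert_of_notMem (mem_compl.1 hi)]
      have : U.card ≠ 0 := fun h => hU (card_eq_zero.1 h)
      omega
    rw [(mem_suppOn.1 hf).2 _ this, mul_zero]
  have hkdh : ∀ f ∈ Cn, (kd K X f ∅).IsHomogeneous (j + 1) := fun f hf => by
    rw [kd_apply]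
    refine IsHomogeneous.sum _ _ _ fun i hi => ?_
    have h := (mem_suppOn.1 hf).1 (insert i ∅) (by simp)
    simp only [sgn, Finset.filter_empty, card_empty, pow_zero, one_mul]
    rw [add_comm]
    exact (isHomogeneous_X K i).mul h
  have hEP : E.map P = koszulChains I 1 (j + 1) ⊓ LinearMap.ker (koszulD I) := by
    apply le_antisymm
    · rintro _ ⟨f, ⟨hf, hfI⟩, rfl⟩
      refine ⟨hC1 ▸ Submodule.mem_map_of_mem hf, LinearMap.mem_ker.2 ?_⟩
      rw [hPkd]
      funext U
      show π (kd K X f U) = 0
      by_cases hU : U = ∅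
      · subst hU; exact Ideal.Quotient.eq_zero_iff_mem.2 hfI.1
      · rw [hkd0 f hf U hU, map_zero]
    · rintro x ⟨hx, hx0⟩
      rw [hC1] at hx
      obtain ⟨f, hf, rfl⟩ := hx
      refine ⟨f, ⟨hf, ?_, hkdh f hf⟩, rfl⟩
      have := congrFun (LinearMap.mem_ker.1 hx0) ∅
      rw [hPkd] at this
      exact Ideal.Quotient.eq_zero_iff_mem.1 this
  let Bd := (suppOn (n := n) K 2 (if 2 ≤ j + 1 then H (j - 1) else ⊥)).map (kd K X)
  have hC2 : (koszulChains I 2 (j + 1)).map (koszulD I) = Bd.map P := by
    show _ = ((suppOn (n := n) K 2 (if 2 ≤ j + 1 then H (j - 1) else ⊥)).map (kd K X)).map P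
    rw [← Submodule.map_comp, show P.comp (kd K X) = (koszulD I).comp P from
      LinearMap.ext fun f => (hPkd f).symm, Submodule.map_comp]
    congr 1
    rw [koszulChains]
    split_ifs with h2
    · rw [hsupp, show j + 1 - 2 = j - 1 by omega]
    · have hb : ∀ {R : Type u} [CommRing R] [Algebra K R],
          (suppOn (n := n) K 2 (⊥ : Submodule K R)) = ⊥ := by
        intro R _ _
        rw [Submodule.eq_bot_iff]
        intro f hf
        funext U
        by_cases hU : U.card = 2
        · simpa using (mem_suppOn.1 hf).1 U hU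
        · exact (mem_suppOn.1 hf).2 U hU
      rw [hb, hb, Submodule.map_bot]
  have hBdE : Bd = E ⊓ LinearMap.ker (kd K X) := by
    apply le_antisymm
    · rintro _ ⟨g, hg, rfl⟩
      have h0 : kd K X (kd K X g) = 0 := kd_kd _ g
      obtain ⟨hg1, hg0⟩ := mem_suppOn.1 hg
      refine ⟨⟨mem_suppOn.2 ⟨fun U hU => ?_, fun U hU => ?_⟩, ?_⟩, h0⟩
      · rw [kd_apply]
        refine Submodule.sum_mem _ fun i hi => ?_
        have h := hg1 _ (by rw [card_insert_of_notMem (mem_compl.1 hi), hU])
        split_ifs at h with h2
        · have h' : (X i * g (insert i U)).IsHomogeneous j := by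
            have := (isHomogeneous_X K i).mul h
            rwa [show 1 + (j - 1) = j by omega] at this
          rw [mul_assoc]
          rcases neg_one_pow_eq_or (MvPolynomial (Fin n) K) (U.filter (· < i)).card with h1 | h1
          · simpa [sgn, h1, H] using h'
          · simpa [sgn, h1, H] using h'
        · rw [Submodule.mem_bot] at h
          simp [h]
      · rw [kd_apply]
        refine Finset.sum_eq_zero fun i hi => ?_
        rw [hg0 _ (by rw [card_insert_of_notMem (mem_compl.1 hi)]; omega), mul_zero]
      · show kd K X (kd K X g) ∅ ∈ grade I (j + 1)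
        rw [h0]; exact zero_mem _
    · rintro f ⟨⟨hf, -⟩, hf0⟩
      rcases j with _ | j
      · have hf' : f = 0 := funext fun U => by
          by_cases hU : U.card = 1
          · obtain ⟨i, rfl⟩ := card_eq_one.1 hU
            have h := congrFun (LinearMap.mem_ker.1 hf0) ∅
            rw [kd_apply] at h
            have hi := (mem_suppOn.1 hf).1 {i} (card_singleton i)
            obtain ⟨r, hr⟩ : ∃ r : K, f {i} = MvPolynomial.C r := ⟨coeff 0 (f {i}), by
              ext δ
              rw [coeff_C]
              split_ifs with hδ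
              · rw [hδ]
              · exact IsHomogeneous.coeff_eq_zero hi (by
                  rw [Ne, Finsupp.degree_eq_zero_iff]; exact fun h => hδ h.symm)⟩
            have h1 := congrArg (coeff (Finsupp.single i 1)) h
            rw [coeff_sum, Pi.zero_apply, coeff_zero, Finset.sum_eq_single i] at h1
            · have hr0 : r = 0 := by simpa [sgn, hr, mul_comm (X i), coeff_C_mul] using h1
              rw [hr, hr0, map_zero, Pi.zero_apply]
            · intro l _ hli
              have hl := (mem_suppOn.1 hf).1 (insert l ∅) (by simp)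
              simp only [sgn, Finset.filter_empty, card_empty, pow_zero, one_mul]
              classical
              rw [coeff_X_mul', if_neg (by simp [hli, Ne.symm hli])]
            · simp
          · exact (mem_suppOn.1 hf).2 U hU
        rw [hf']; exact zero_mem _
      · have := exact_one j hf (LinearMap.mem_ker.1 hf0)
        show f ∈ (suppOn (n := n) K 2 (if 2 ≤ j + 1 + 1 then H (j + 1 - 1) else ⊥)).map (kd K X)
        rwa [if_pos (by omega), Nat.add_sub_cancel]
  -- the images
  have hNE : N ≤ E := fun f hf => by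
    obtain ⟨h1, h2⟩ := mem_suppOn.1 hf
    refine ⟨mem_suppOn.2 ⟨fun U hU => (h1 U hU).2, h2⟩, ?_, hkdh f
      (mem_suppOn.2 ⟨fun U hU => (h1 U hU).2, h2⟩)⟩
    show kd K X f ∅ ∈ I
    rw [kd_apply]
    exact I.sum_mem fun i hi => I.mul_mem_left _ (h1 _ (by simp)).1
  have hkerE : E ⊓ LinearMap.ker P = N := by
    refine le_antisymm ?_ fun f hf => ⟨hNE hf, funext fun U => ?_⟩
    · rintro f ⟨⟨hf, -⟩, h0⟩
      obtain ⟨h1, h2⟩ := mem_suppOn.1 hf
      exact mem_suppOn.2 ⟨fun U hU => ⟨Ideal.Quotient.eq_zero_iff_mem.1 (congrFun h0 U), h1 U hU⟩, h2⟩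
    · obtain ⟨h1, h2⟩ := mem_suppOn.1 hf
      show π (f U) = 0
      by_cases hU : U.card = 1
      · exact Ideal.Quotient.eq_zero_iff_mem.2 (h1 U hU).1
      · rw [h2 U hU, map_zero]
  let ev : (Finset (Fin n) → MvPolynomial (Fin n) K) →ₗ[K] MvPolynomial (Fin n) K :=
    (LinearMap.proj ∅).comp (kd K X)
  have hkev : ∀ f ∈ Cn, (kd K X f = 0 ↔ ev f = 0) := fun f hf =>
    ⟨fun h => congrFun h ∅, fun h => funext fun U => by
      by_cases hU : U = ∅
      · subst hU; exact h
      · exact hkd0 f hf U hU⟩
  have hEev : E ⊓ LinearMap.ker (kd K X) = E ⊓ LinearMap.ker ev := by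
    ext f
    exact ⟨fun ⟨h1, h2⟩ => ⟨h1, (hkev f h1.1).1 h2⟩, fun ⟨h1, h2⟩ => ⟨h1, (hkev f h1.1).2 h2⟩⟩
  -- every element of `I_{j+1}` is hit
  have hmon : ∀ (p : MvPolynomial (Fin n) K), p.IsHomogeneous (j + 1) → p ∈ Cn.map ev := by
    intro p hp
    rw [p.as_sum]
    refine Submodule.sum_mem _ fun δ hδ => ?_
    have hdeg : δ.degree = j + 1 := by
      by_contra hne
      exact mem_support_iff.1 hδ (hp.coeff_eq_zero hne)
    obtain ⟨i, hi⟩ : ∃ i, δ i ≠ 0 := by
      by_contra hh
      simp only [not_exists, not_not] at hh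
      rw [show δ = 0 from Finsupp.ext hh, map_zero] at hdeg
      omega
    refine ⟨fun U => if U = {i} then monomial (δ - Finsupp.single i 1) (coeff δ p) else 0,
      mem_suppOn.2 ⟨fun U _ => ?_, fun U hU => if_neg fun h => hU (by simp [h])⟩, ?_⟩
    · split_ifs
      · refine isHomogeneous_monomial _ ?_
        have := congrArg Finsupp.degree
          (tsub_add_cancel_of_le (Finsupp.single_le_iff.2 (by omega : 1 ≤ δ i)))
        rw [map_add, Finsupp.degree_single] at this
        omega
      · exact zero_mem _
    · rw [LinearMap.comp_apply, LinearMap.proj_apply]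
      rw [kd_apply, Finset.sum_eq_single i]
      · have : sgn (MvPolynomial (Fin n) K) i (∅ : Finset (Fin n)) = 1 := by simp [sgn]
        simp only [this, one_mul, insert_empty_eq, if_true]
        rw [mul_comm, ← pow_one (X i), ← monomial_add_single,
          tsub_add_cancel_of_le (Finsupp.single_le_iff.2 (by omega : 1 ≤ δ i))]
      · intro k _ hki
        simp [hki]
      · simp
  have hEimg : E.map ev = grade I (j + 1) := by
    apply le_antisymm
    · rintro _ ⟨f, hf, rfl⟩; exact hf.2
    · intro p hp
      obtain ⟨f, hf, rfl⟩ := hmon p hp.2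
      exact ⟨f, ⟨hf, hp⟩, rfl⟩
  have hNimg : N.map ev =
      grade (Ideal.span (grade I j : Set (MvPolynomial (Fin n) K))) (j + 1) := by
    apply le_antisymm
    · rintro _ ⟨f, hf, rfl⟩
      refine ⟨?_, (hkdh f (hNE hf).1)⟩
      show kd K X f ∅ ∈ Ideal.span _
      rw [kd_apply]
      exact Submodule.sum_mem _ fun i hi =>
        Ideal.mul_mem_left _ _ (Ideal.subset_span ((mem_suppOn.1 hf).1 _ (by simp)))
    · exact genSpace_le I j
  have hNker : N ⊓ LinearMap.ker ev = Bd ⊓ LinearMap.ker P := by
    rw [hBdE, hEev, ← hkerE]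
    simp only [inf_assoc, inf_comm (LinearMap.ker P) (LinearMap.ker ev)]
  have : FiniteDimensional K Bd := Submodule.finiteDimensional_of_le (hBdE.le.trans inf_le_left)
  have : FiniteDimensional K N := Submodule.finiteDimensional_of_le hNE
  have e1 := finrank_inf_ker_add P E
  have e2 := finrank_inf_ker_add ev E
  have e3 := finrank_inf_ker_add P Bd
  have e4 := finrank_inf_ker_add ev N
  have e5 : betti I 1 (j + 1) + finrank K ↥((koszulChains I 2 (j + 1)).map (koszulD I)) =
      finrank K ↥(koszulChains I 1 (j + 1) ⊓ LinearMap.ker (koszulD I)) := betti_add I 1 (j + 1)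
  rw [hkerE, hEP] at e1
  rw [hEimg, ← hEev, ← hBdE] at e2
  rw [← hC2, ← hNker] at e3
  rw [hNimg] at e4
  omega

/-- `β_{1,0} = 0`. -/
lemma betti_one_zero : betti I 1 0 = 0 := by
  have : koszulChains I 1 0 = ⊥ := by
    rw [Submodule.eq_bot_iff]
    intro f hf
    obtain ⟨hf1, hf0⟩ := mem_suppOn.1 hf
    funext U
    by_cases hU : U.card = 1
    · simpa using hf1 U hU
    · exact hf0 U hU
  rw [betti, this, bot_inf_eq, finrank_bot, Nat.zero_sub]

/-- Socle elements of degree `d`. -/
noncomputable def socSpace (d : ℕ) : Submodule K (MvPolynomial (Fin n) K) :=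
  homogeneousSubmodule (Fin n) K d ⊓ ⨅ i, (I.restrictScalars K).comap (LinearMap.mulLeft K (X i))

lemma mem_socSpace {d : ℕ} {p : MvPolynomial (Fin n) K} :
    p ∈ socSpace I d ↔ p.IsHomogeneous d ∧ ∀ i, X i * p ∈ I := by
  simp [socSpace]

lemma chains_eq_bot {p j : ℕ} (h : n < p ∨ j < p) : koszulChains I p j = ⊥ := by
  rw [Submodule.eq_bot_iff]
  intro f hf
  obtain ⟨hf1, hf0⟩ := mem_suppOn.1 hf
  funext U
  by_cases hU : U.card = p
  · rcases h with h | h
    · have := card_le_univ U
      simp at this
      omega
    · simpa [if_neg (not_le.2 h)] using hf1 U hU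
  · exact hf0 U hU

lemma betti_eq_zero {p j : ℕ} (h : n < p ∨ j < p) : betti I p j = 0 := by
  rw [betti, chains_eq_bot I h, bot_inf_eq, finrank_bot, Nat.zero_sub]

/-- The last Betti number is the socle. -/
theorem betti_top (d : ℕ) :
    betti I n (d + n) + finrank K ↥(grade I d) = finrank K ↥(socSpace I d) := by
  set π := (Ideal.Quotient.mkₐ K I).toLinearMap with hπ
  let G : MvPolynomial (Fin n) K →ₗ[K] (Finset (Fin n) → MvPolynomial (Fin n) K ⧸ I) :=
    LinearMap.pi fun U => if U = univ then π else 0
  have hG : ∀ p U, G p U = if U = univ then π p else 0 := fun p U => by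
    show (if U = univ then π else 0) p = _
    split_ifs <;> simp
  have := finite_hom (K := K) (n := n) d
  have : FiniteDimensional K ↥(socSpace I d) := Submodule.finiteDimensional_of_le inf_le_left
  have hk : socSpace I d ⊓ LinearMap.ker G = grade I d := by
    ext p
    constructor
    · rintro ⟨hp, h0⟩
      have := congrFun h0 univ
      rw [hG, if_pos rfl] at this
      exact ⟨Ideal.Quotient.eq_zero_iff_mem.1 this, ((mem_socSpace I).1 hp).1⟩
    · rintro ⟨hp, hd⟩
      refine ⟨(mem_socSpace I).2 ⟨hd, fun i => I.mul_mem_left _ hp⟩, funext fun U => ?_⟩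
      rw [hG]
      split_ifs
      · exact Ideal.Quotient.eq_zero_iff_mem.2 hp
      · rfl
  have himg : (socSpace I d).map G = koszulChains I n (d + n) ⊓ LinearMap.ker (koszulD I) := by
    apply le_antisymm
    · rintro _ ⟨p, hp, rfl⟩
      obtain ⟨hpd, hpX⟩ := (mem_socSpace I).1 hp
      refine ⟨mem_suppOn.2 ⟨fun U hU => ?_, fun U hU => ?_⟩, funext fun U => ?_⟩
      · rw [if_pos (Nat.le_add_left n d), Nat.add_sub_cancel, hG]
        split_ifs
        · exact ⟨p, hpd, rfl⟩
        · exact zero_mem _
      · rw [hG, if_neg]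
        rintro rfl; simp at hU
      · rw [koszulD, kd_apply]
        refine Finset.sum_eq_zero fun i _ => ?_
        rw [hG]
        split_ifs
        · rw [mul_assoc, show Ideal.Quotient.mk I (X i) * π p = 0 from
            (map_mul (Ideal.Quotient.mk I) (X i) p).symm.trans
              (Ideal.Quotient.eq_zero_iff_mem.2 (hpX i)), mul_zero]
        · rw [mul_zero]
    · rintro f ⟨hf, hf0⟩
      obtain ⟨hf1, hf2⟩ := mem_suppOn.1 hf
      have h := hf1 univ (by simp)
      rw [if_pos (Nat.le_add_left n d), Nat.add_sub_cancel] at h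
      obtain ⟨p, hp, hpf⟩ := h
      refine ⟨p, (mem_socSpace I).2 ⟨hp, fun i => ?_⟩, funext fun U => ?_⟩
      · have h1 := congrFun (LinearMap.mem_ker.1 hf0) (univ.erase i)
        rw [koszulD, kd_apply, compl_erase, compl_univ, insert_empty_eq, Finset.sum_singleton,
          insert_erase (mem_univ i), Pi.zero_apply, mul_assoc] at h1
        have h2 := congrArg (fun z => sgn (MvPolynomial (Fin n) K ⧸ I) i (univ.erase i) * z) h1
        simp only [← mul_assoc, sgn_sq, one_mul, mul_zero] at h2
        rw [← hpf] at h2
        exact Ideal.Quotient.eq_zero_iff_mem.1 ((map_mul (Ideal.Quotient.mk I) (X i) p).trans h2)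
      · rw [hG]
        split_ifs with hU
        · rw [hU]; exact hpf
        · refine (hf2 U fun hc => hU ?_).symm
          exact eq_univ_of_card U (by simp [hc])
  have e := finrank_inf_ker_add G (socSpace I d)
  have e' := betti_add I n (d + n)
  rw [chains_eq_bot I (Or.inl n.lt_succ_self), Submodule.map_bot, finrank_bot] at e'
  rw [hk, himg] at e
  omega

variable {I}

lemma finrank_chains_congr {K' : Type*} [Field K'] {J : Ideal (MvPolynomial (Fin n) K')} {j : ℕ}
    (h : ∀ d ≤ j, hq J d = hq I d) (p : ℕ) :
    finrank K' ↥(koszulChains J p j) = finrank K ↥(koszulChains I p j) := by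
  rw [finrank_chains, finrank_chains, h (j - p) (Nat.sub_le _ _)]

/-- `β₀` depends only on the Hilbert function. -/
lemma betti_zero_congr {K' : Type*} [Field K'] {J : Ideal (MvPolynomial (Fin n) K')} {j : ℕ}
    (h : ∀ d ≤ j, hq J d = hq I d) : betti J 0 j = betti I 0 j := by
  unfold betti
  rw [cycles_zero, cycles_zero, finrank_chains_congr h, finrank_boundary_zero,
    finrank_boundary_zero, h j le_rfl]

/-- With equal Hilbert functions in three variables, `β₁` and `β₃` control `β₂`. -/
lemma betti_two_le {K' : Type*} [Field K'] {I : Ideal (MvPolynomial (Fin 3) K)}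
    {J : Ideal (MvPolynomial (Fin 3) K')} {j : ℕ}
    (h : ∀ d ≤ j, hq J d = hq I d)
    (h1 : betti I 1 j ≤ betti J 1 j) (h3 : betti I 3 j ≤ betti J 3 j) :
    betti I 2 j ≤ betti J 2 j := by
  have := finite_chains I 1 j
  have := finite_chains I 2 j
  have := finite_chains I 3 j
  have := finite_chains J 1 j
  have := finite_chains J 2 j
  have := finite_chains J 3 j
  have a1 : betti I 1 j + finrank K ↥((koszulChains I 2 j).map (koszulD I)) =
      finrank K ↥(koszulChains I 1 j ⊓ LinearMap.ker (koszulD I)) := betti_add I 1 j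
  have a2 : betti I 2 j + finrank K ↥((koszulChains I 3 j).map (koszulD I)) =
      finrank K ↥(koszulChains I 2 j ⊓ LinearMap.ker (koszulD I)) := betti_add I 2 j
  have a3 := betti_add I 3 j
  have b1 : betti J 1 j + finrank K' ↥((koszulChains J 2 j).map (koszulD J)) =
      finrank K' ↥(koszulChains J 1 j ⊓ LinearMap.ker (koszulD J)) := betti_add J 1 j
  have b2 : betti J 2 j + finrank K' ↥((koszulChains J 3 j).map (koszulD J)) =
      finrank K' ↥(koszulChains J 2 j ⊓ LinearMap.ker (koszulD J)) := betti_add J 2 j
  have b3 := betti_add J 3 j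
  have r1 := finrank_inf_ker_add (koszulD I) (koszulChains I 1 j)
  have r2 := finrank_inf_ker_add (koszulD I) (koszulChains I 2 j)
  have r3 := finrank_inf_ker_add (koszulD I) (koszulChains I 3 j)
  have s1 := finrank_inf_ker_add (koszulD J) (koszulChains J 1 j)
  have s2 := finrank_inf_ker_add (koszulD J) (koszulChains J 2 j)
  have s3 := finrank_inf_ker_add (koszulD J) (koszulChains J 3 j)
  rw [chains_eq_bot I (Or.inl (by omega : 3 < 3 + 1)), Submodule.map_bot, finrank_bot] at a3
  rw [chains_eq_bot J (Or.inl (by omega : 3 < 3 + 1)), Submodule.map_bot, finrank_bot] at b3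
  have c1 := finrank_chains_congr h 1
  have c2 := finrank_chains_congr h 2
  have c3 := finrank_chains_congr h 3
  have d0 : finrank K' ↥((koszulChains J 1 j).map (koszulD J)) =
      finrank K ↥((koszulChains I 1 j).map (koszulD I)) := by
    rw [finrank_boundary_zero, finrank_boundary_zero, h j le_rfl]
  omega

end Vale.P200.Betti
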