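import Vale.Agent.P200.Betti.Count
import Vale.Agent.P200.Ext.General

/-!
P200, Betti numbers: three variables. A regular sequence with lowered degrees inside `I`, and the
bound on the generators of `I`.
-/

namespace Vale.P200.Betti

open MvPolynomial Module Finset Vale.P200.Ext

universe u

variable {K : Type u} [Field K]

section Primes

variable {n : ℕ}

/-- A subspace in no associated prime of `S/Q` has a nonzerodivisor modulo `Q`. -/
lemma exists_nzd [Infinite K] (Q : Ideal (MvPolynomial (Fin n) K))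
    (V : Submodule K (MvPolynomial (Fin n) K))
    (h : ∀ (P : Ideal (MvPolynomial (Fin n) K)) (r : MvPolynomial (Fin n) K), P.IsPrime →
      (∀ x, x ∈ P ↔ x * r ∈ Q) → ¬ ∀ v ∈ V, v ∈ P) :
    ∃ g ∈ V, NZD Q g := by
  by_contra hg
  let ι := {P : Ideal (MvPolynomial (Fin n) K) //
    P ∈ associatedPrimes (MvPolynomial (Fin n) K) (MvPolynomial (Fin n) K ⧸ Q)}
  have : Finite ι := (associatedPrimes.finite _ _).to_subtype
  obtain ⟨P, hP⟩ : ∃ P : ι, ∀ p ∈ V, p ∈ P.1 := by
    by_contra hcon
    simp only [not_exists, not_forall] at hcon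
    obtain ⟨x, hx⟩ := Submodule.exists_forall_notMem_of_forall_ne_top
      (fun P : ι => Submodule.comap V.subtype (P.1.restrictScalars K)) fun P h => by
        obtain ⟨p, hp, hpP⟩ := hcon P
        have : (⟨p, hp⟩ : V) ∈ Submodule.comap V.subtype (P.1.restrictScalars K) := by
          rw [h]; exact Submodule.mem_top
        exact hpP this
    refine hg ⟨x.1, x.2, fun p hp => ?_⟩
    have hreg1 : IsSMulRegular (MvPolynomial (Fin n) K ⧸ Q) x.1 := by
      by_contra hn
      have h1 : x.1 ∈ ({r : MvPolynomial (Fin n) K |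
          IsSMulRegular (MvPolynomial (Fin n) K ⧸ Q) r}ᶜ : Set _) := hn
      rw [← biUnion_associatedPrimes_eq_compl_regular] at h1
      simp only [Set.mem_iUnion, SetLike.mem_coe] at h1
      obtain ⟨P, hP, hxP⟩ := h1
      exact hx ⟨P, hP⟩ hxP
    exact (isSMulRegular_quotient_iff_mem_of_smul_mem _ _).1 hreg1 p hp
  obtain ⟨hprime, y, hy⟩ := isAssociatedPrime_iff.1 P.2
  obtain ⟨r, rfl⟩ := Submodule.Quotient.mk_surjective (p := Q) y
  refine h P.1 r hprime (fun x => ?_) hP
  rw [hy, Submodule.mem_colon_singleton, Submodule.mem_bot, ← Submodule.Quotient.mk_smul,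
    Submodule.Quotient.mk_eq_zero, smul_eq_mul]

/-- The variables do not all lie in an associated prime of fewer forms than variables. -/
lemma not_all_X [Infinite K] {l : List (MvPolynomial (Fin n) K)} (hl : l.length < n)
    (hpos : ∀ g ∈ l, PosForm g) (hreg : RegMod ⊥ l) {P : Ideal (MvPolynomial (Fin n) K)}
    (hP : P.IsPrime) {r : MvPolynomial (Fin n) K} (hm : ∀ x, x ∈ P ↔ x * r ∈ Ideal.ofList l) :
    ¬ ∀ i, X i ∈ P := fun h => hP.ne_top <| (Ideal.eq_top_iff_one _).2 <| (hm 1).2 <| by
  rw [one_mul]; exact noSocleHyp l hl hpos hreg r fun i => (hm _).1 (h i)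

lemma mem_or_all_X {P : Ideal (MvPolynomial (Fin n) K)} (hP : P.IsPrime)
    {p : MvPolynomial (Fin n) K} {k : ℕ} (h : ∀ i, p * X i ^ k ∈ P) : p ∈ P ∨ ∀ i, X i ∈ P := by
  by_cases hp : p ∈ P
  · exact Or.inl hp
  · exact Or.inr fun i => hP.mem_of_pow_mem k ((hP.mem_or_mem (h i)).resolve_left hp)

/-- Two coprime forms are not both annihilated by an element outside a principal ideal. -/
lemma mem_span_of_pair {g f₀ f₁ r : MvPolynomial (Fin n) K} (hg : g ≠ 0) (hf : f₀ ≠ 0)
    (hnzd : NZD (Ideal.span {f₀}) f₁) (h₀ : f₀ * r ∈ Ideal.span {g})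
    (h₁ : f₁ * r ∈ Ideal.span {g}) : r ∈ Ideal.span {g} := by
  obtain ⟨u, hu⟩ := Ideal.mem_span_singleton'.1 h₀
  obtain ⟨v, hv⟩ := Ideal.mem_span_singleton'.1 h₁
  have he : g * (f₁ * u) = g * (f₀ * v) := by linear_combination f₁ * hu - f₀ * hv
  have he' := mul_left_cancel₀ hg he
  obtain ⟨w, hw⟩ := Ideal.mem_span_singleton'.1
    (hnzd u (Ideal.mem_span_singleton'.2 ⟨v, by rw [he']; ring⟩))
  refine Ideal.mem_span_singleton'.2 ⟨w, mul_left_cancel₀ hf ?_⟩
  linear_combination hu + g * hw

/-- The top component of a product. -/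
lemma hcomp_mul_top {u w : MvPolynomial (Fin n) K} {e k : ℕ} (hu : u.totalDegree ≤ e)
    (hw : w.totalDegree ≤ k) :
    homogeneousComponent (e + k) (u * w) =
      homogeneousComponent e u * homogeneousComponent k w := by
  conv_lhs => rw [← sum_homogeneousComponent u, sum_mul, map_sum]
  rw [Finset.sum_eq_single u.totalDegree]
  · rw [mul_comm (homogeneousComponent _ u) w,
      hcomp_mul (homogeneousComponent_isHomogeneous _ _), if_pos (by omega)]
    rcases hu.eq_or_lt with he | hlt
    · rw [← he, Nat.add_sub_cancel_left]; ring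
    · rw [homogeneousComponent_eq_zero (n := e) (φ := u) hlt,
        homogeneousComponent_eq_zero (n := e + k - u.totalDegree) (φ := w) (by omega)]
      simp
  · intro j hj hne
    have hj' := Finset.mem_range.1 hj
    rw [mul_comm (homogeneousComponent _ u) w,
      hcomp_mul (homogeneousComponent_isHomogeneous _ _), if_pos (by omega),
      homogeneousComponent_eq_zero (n := e + k - j) (φ := w) (by omega), zero_mul]
  · intro h
    exact absurd (Finset.mem_range.2 (Nat.lt_succ_self _)) h

end Primes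

lemma finrank_hom_three (d : ℕ) :
    finrank K ↥(homogeneousSubmodule (Fin 3) K d) = (d + 2).choose 2 := by
  rw [finrank_homogeneous, ncard_degree]

lemma hom_three_succ (d : ℕ) : (d + 1 + 2).choose 2 = (d + 2).choose 2 + (d + 2) := by
  rw [show d + 1 + 2 = d + 2 + 1 by omega, Nat.choose_succ_succ' (d + 2) 1, Nat.choose_one_right,
    show (1 + 1 : ℕ) = 2 from rfl]
  omega

/-- If all degree-`d` forms of `I` lie in an associated prime of a principal ideal, then they are
the multiples of one form of positive degree. -/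
lemma hq_ge_of_annihilated {I : Ideal (MvPolynomial (Fin 3) K)} {d : ℕ} (hd : 1 ≤ d)
    {g r : MvPolynomial (Fin 3) K} (hg : g ≠ 0) (hr : r ∉ Ideal.span {g})
    (h : ∀ v ∈ grade I d, v * r ∈ Ideal.span {g}) :
    d + 1 ≤ hq I d := by
  have hd' : d - 1 + 1 = d := by omega
  have hstep := hom_three_succ (d - 1)
  rw [hd'] at hstep
  suffices hle : finrank K ↥(grade I d) ≤ finrank K ↥(homogeneousSubmodule (Fin 3) K (d - 1)) by
    simp only [hq, finrank_hom_three] at hle ⊢
    omega
  by_cases hbot : grade I d = ⊥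
  · rw [hbot, finrank_bot]; exact Nat.zero_le _
  obtain ⟨u, b, c, hrel, hcu, hcb⟩ := UniqueFactorizationMonoid.exists_reduced_factors g hg r
  have hu : ∀ v ∈ grade I d, u ∣ v := fun v hv => by
    have h1 := Ideal.mem_span_singleton.1 (h v hv)
    rw [← hcu, ← hcb, mul_left_comm] at h1
    have hc : c ≠ 0 := fun h0 => hg (by rw [← hcu, h0, zero_mul])
    exact hrel.dvd_of_dvd_mul_right ((mul_dvd_mul_iff_left hc).1 h1)
  have hunit : ¬ IsUnit u := fun hh => hr <| Ideal.mem_span_singleton.2 <| by
    obtain ⟨w, hw⟩ := hh.dvd (a := b)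
    exact ⟨w, by rw [← hcu, ← hcb, hw, mul_assoc]⟩
  have hu0 : u ≠ 0 := fun h0 => hg (by rw [← hcu, h0, mul_zero])
  have he : 1 ≤ u.totalDegree := by
    by_contra hlt
    have h0 : u.totalDegree = 0 := by omega
    rw [totalDegree_eq_zero_iff_eq_C] at h0
    refine hunit ?_
    rw [h0] at hu0 ⊢
    exact (isUnit_iff_ne_zero.2 fun hh => hu0 (by rw [hh, map_zero])).map C
  obtain ⟨v, hv, hv0⟩ := Submodule.exists_mem_ne_zero_of_ne_bot hbot
  have hfac : ∀ v ∈ grade I d, v ≠ 0 → u.totalDegree ≤ d ∧
      ∃ w, v = homogeneousComponent u.totalDegree u * w ∧ w.IsHomogeneous (d - u.totalDegree) := by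
    intro v hv hv0
    obtain ⟨w, rfl⟩ := hu v hv
    have hw0 : w ≠ 0 := fun h0 => hv0 (by rw [h0, mul_zero])
    have ht : d = u.totalDegree + w.totalDegree :=
      (IsHomogeneous.totalDegree hv.2 hv0).symm.trans (totalDegree_mul_of_isDomain hu0 hw0)
    refine ⟨by omega, homogeneousComponent (d - u.totalDegree) w, ?_,
      homogeneousComponent_isHomogeneous _ _⟩
    rw [← hcomp_mul_top le_rfl (k := d - u.totalDegree) (by omega),
      show u.totalDegree + (d - u.totalDegree) = d by omega, homogeneousComponent_eq_self hv.2]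
  have hed := (hfac v hv hv0).1
  have hsub : grade I d ≤ (homogeneousSubmodule (Fin 3) K (d - u.totalDegree)).map
      (LinearMap.mulLeft K (homogeneousComponent u.totalDegree u)) := by
    intro x hx
    by_cases hx0 : x = 0
    · rw [hx0]; exact zero_mem _
    · obtain ⟨-, w, hw, hwh⟩ := hfac x hx hx0
      exact ⟨w, hwh, hw.symm⟩
  have := finite_hom (K := K) (n := 3) (d - u.totalDegree)
  refine (Submodule.finrank_mono hsub).trans ((Submodule.finrank_map_le _ _).trans ?_)
  rw [finrank_hom_three, finrank_hom_three]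
  exact Nat.choose_le_choose _ (by omega)

section Lex

lemma lex_three {g g' : Fin 3 → ℕ} (h : g 0 < g' 0 ∨ g 0 = g' 0 ∧ g 1 < g' 1) :
    toLex g < toLex g' := by
  rcases h with h | ⟨h0, h⟩
  · exact ⟨0, fun j hj => absurd hj (Fin.not_lt_zero j), h⟩
  · refine ⟨1, fun j hj => ?_, h⟩
    fin_cases j
    · exact h0
    · exact absurd hj (by decide)
    · exact absurd hj (by decide)

variable {a : Fin 3 → ℕ} {d q : ℕ}

lemma pure_zero (h : Pi.single 1 d ∈ seg a d q) (hd : d < a 0) (hd0 : 1 ≤ d) :
    Pi.single 0 d ∈ seg a d q := by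
  refine (isSeg_seg a d q).2 _ (mem_lev.2 ⟨fun i => ?_, by simp⟩) _ h (lex_three (Or.inl ?_))
  · have := (mem_lev.1 (mem_filter.1 h).1).1 i
    fin_cases i <;> simp at * <;> omega
  · simp; omega

lemma pure_two (h : Pi.single 2 d ∈ seg a d q) : lev a d ⊆ seg a d q := by
  intro x hx
  by_cases he : x = Pi.single 2 d
  · exact he ▸ h
  · refine (isSeg_seg a d q).2 x hx _ h (lex_three ?_)
    have hs := (mem_lev.1 hx).2
    rw [Fin.sum_univ_three] at hs
    by_contra hc
    refine he (funext fun i => ?_)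
    simp at hc
    fin_cases i <;> simp <;> omega

lemma pure_one (h : Pi.single 1 d ∈ seg a d q) : (lev a d \ seg a d q).card ≤ d := by
  have hsub : lev a d \ seg a d q ⊆ (range d).image fun j => ![0, j, d - j] := by
    intro x hx
    obtain ⟨hx, hxs⟩ := mem_sdiff.1 hx
    have hs := (mem_lev.1 hx).2
    rw [Fin.sum_univ_three] at hs
    have hnot : ¬ toLex (Pi.single 1 d : Fin 3 → ℕ) < toLex x := fun hlt =>
      hxs ((isSeg_seg a d q).2 x hx _ h hlt)
    have hne : x ≠ Pi.single 1 d := fun he => hxs (he ▸ h)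
    have h0 : x 0 = 0 := by
      by_contra hh
      exact hnot (lex_three (Or.inl (by simp; omega)))
    have h1 : x 1 < d := by
      by_contra hh
      refine hne (funext fun i => ?_)
      fin_cases i <;> simp <;> omega
    refine mem_image.2 ⟨x 1, mem_range.2 h1, funext fun i => ?_⟩
    fin_cases i <;> simp <;> omega
  exact (card_le_card hsub).trans (card_image_le.trans (card_range d).le)

end Lex

lemma good_vec [Infinite K] {a : Fin 3 → ℕ} (h0 : 2 ≤ a 0) (h1 : a 0 ≤ a 1) (h2 : a 1 ≤ a 2) :
    Good K a := by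
  have : a = ![a 0, a 1, a 2] := by funext i; fin_cases i <;> rfl
  rw [this]
  exact good_three h0 h1 h2

lemma grade_eq_hom {I : Ideal (MvPolynomial (Fin 3) K)} {d : ℕ} (h : hq I d = 0) :
    grade I d = homogeneousSubmodule (Fin 3) K d := by
  have := finite_hom (K := K) (n := 3) d
  refine Submodule.eq_of_le_of_finrank_le inf_le_right ?_
  simp only [hq] at h
  omega

/-- The generators in degree `d + 1`, when `2 ≤ d`. -/
theorem gen_ge_of_two_le [Infinite K] {a : Fin 3 → ℕ} (ha : ∀ i, 2 ≤ a i) (hmono : Monotone a)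
    {f : Fin 3 → MvPolynomial (Fin 3) K} (hf : ∀ i, (f i).IsHomogeneous (a i))
    (hreg : RegMod ⊥ (List.ofFn f)) {I : Ideal (MvPolynomial (Fin 3) K)}
    (hI : Closed I) (hfI : ∀ i, f i ∈ I) {d : ℕ} (hd : 2 ≤ d) (hpos : hq I d ≠ 0) :
    (succMon d (lppMono a (hq I d) d)).card ≤
      finrank K ↥(grade (Ideal.span (grade I d : Set (MvPolynomial (Fin 3) K))) (d + 1)) := by
  classical
  have h01 : a 0 ≤ a 1 := hmono (by decide)
  have h12 : a 1 ≤ a 2 := hmono (by decide)
  have hle := (good_vec (ha 0) h01 h12 f hf hreg I hI hfI d).1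
  set q := (lev a d).card - hq I d with hq'
  let R : Fin 3 → Prop := fun k => a k = d + 1 ∧ Pi.single k d ∈ seg a d q
  let a' : Fin 3 → ℕ := fun k => if R k then d else a k
  have hR2 : ¬ R 2 := fun h => by
    have := card_le_card (pure_two h.2)
    rw [card_seg (Nat.sub_le _ _)] at this
    omega
  have hR1 : R 1 → hq I d ≤ d := fun h => by
    have h1 := pure_one h.2
    rw [card_sdiff_of_subset (show seg a d q ⊆ lev a d from filter_subset _ _),
      card_seg (Nat.sub_le _ _)] at h1
    omega
  have hR10 : R 1 → a 0 = d + 1 → R 0 := fun h h0 => ⟨h0, pure_zero h.2 (by omega) (by omega)⟩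
  have hl : ∀ x : Fin 3 → MvPolynomial (Fin 3) K, List.ofFn x = [x 0, x 1, x 2] := fun x => by
    simp [List.ofFn_succ]
  have hreg' := hreg
  rw [hl] at hreg'
  obtain ⟨hf0nzd, hf1nzd, -, -⟩ := hreg'
  rw [bot_sup_eq] at hf1nzd
  have hf0 : f 0 ≠ 0 := fun h0 => one_ne_zero (hf0nzd 1 (by simp [h0]))
  -- the first form
  obtain ⟨g0, hg0I, hg0h, hg0ne⟩ : ∃ g, g ∈ I ∧ g.IsHomogeneous (a' 0) ∧ g ≠ 0 := by
    by_cases hR : R 0
    · have hbot : grade I d ≠ ⊥ := fun hb => by
        have hcard := card_le_card (lev_subset_allMon a d)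
        have hz : finrank K ↥(grade I d) = 0 := by rw [hb, finrank_bot]
        have hh := finrank_hom_allMon (K := K) (n := 3) d
        have hqq : hq I d = (allMon 3 d).card := by
          show finrank K ↥(homogeneousSubmodule (Fin 3) K d) - finrank K ↥(grade I d) = _
          omega
        have h2 : q = 0 := by omega
        have := hR.2
        rw [seg, mem_filter, h2] at this
        exact Nat.not_lt_zero _ this.2
      obtain ⟨g, hg, hg0⟩ := Submodule.exists_mem_ne_zero_of_ne_bot hbot
      exact ⟨g, hg.1, by simp only [a', if_pos hR]; exact hg.2, hg0⟩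
    · exact ⟨f 0, hfI 0, by simp only [a', if_neg hR]; exact hf 0, hf0⟩
  have ha'0 : 2 ≤ a' 0 ∧ a' 0 ≤ a 0 := by
    simp only [a']
    split_ifs with hR
    · exact ⟨hd, by rw [hR.1]; omega⟩
    · exact ⟨ha 0, le_rfl⟩
  have hpos0 : ∀ g ∈ [g0], PosForm g := by
    intro g hg
    rw [List.mem_singleton] at hg
    exact hg ▸ ⟨a' 0, by omega, hg0h⟩
  have hreg0 : RegMod ⊥ [g0] := ⟨fun p hp => by
    rw [Ideal.mem_bot] at hp ⊢
    exact (mul_eq_zero.1 hp).resolve_left hg0ne, trivial⟩
  -- the second form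
  obtain ⟨g1, hg1, hg1nzd⟩ : ∃ g ∈ grade I (a' 1), NZD (Ideal.span {g0}) g := by
    refine exists_nzd _ _ fun P r hP hm hV => ?_
    have hr : r ∉ Ideal.span {g0} := fun hr =>
      hP.ne_top ((Ideal.eq_top_iff_one _).2 ((hm 1).2 (by rwa [one_mul])))
    by_cases hR : R 1
    · simp only [a', if_pos hR] at hV
      have := hq_ge_of_annihilated (by omega) hg0ne hr fun v hv => (hm v).1 (hV v hv)
      have := hR1 hR
      omega
    · simp only [a', if_neg hR] at hV
      have hX := not_all_X (l := [g0]) (by simp) hpos0 hreg0 hP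
        (fun x => by rw [Ideal.ofList_singleton]; exact hm x)
      have hf0P : f 0 ∈ P := by
        refine (mem_or_all_X hP (k := a 1 - a 0) fun i => hV _ ⟨I.mul_mem_right _ (hfI 0), ?_⟩)
          |>.resolve_right hX
        have := (hf 0).mul ((isHomogeneous_X K i).pow (a 1 - a 0))
        rwa [one_mul, Nat.add_sub_cancel' h01] at this
      exact hr (mem_span_of_pair hg0ne hf0 hf1nzd ((hm _).1 hf0P)
        ((hm _).1 (hV _ ⟨hfI 1, hf 1⟩)))
  have ha'1 : a' 0 ≤ a' 1 ∧ a' 1 ≤ a 1 := by
    simp only [a']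
    split_ifs with h0 h1 h1
    · exact ⟨le_rfl, by rw [h1.1]; omega⟩
    · exact ⟨by have := h0.1; omega, le_rfl⟩
    · have : a 0 ≠ d + 1 := fun h => h0 (hR10 h1 h)
      exact ⟨by have := h1.1; omega, by rw [h1.1]; omega⟩
    · exact ⟨h01, le_rfl⟩
  have ha'2 : a' 2 = a 2 := if_neg hR2
  have hreg1 : RegMod ⊥ [g0, g1] := ⟨hreg0.1, by rw [bot_sup_eq]; exact hg1nzd, trivial⟩
  have hpos1 : ∀ g ∈ [g0, g1], PosForm g := by
    intro g hg
    rcases List.mem_cons.1 hg with rfl | hg
    · exact ⟨a' 0, by omega, hg0h⟩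
    · rw [List.mem_singleton] at hg
      exact hg ▸ ⟨a' 1, by omega, hg1.2⟩
  -- the third form
  obtain ⟨g2, hg2, hg2nzd⟩ : ∃ g ∈ grade I (a 2), NZD (Ideal.ofList [g0, g1]) g := by
    refine exists_nzd _ _ fun P r hP hm hV => ?_
    refine not_all_X (by simp) hpos1 hreg1 hP hm ?_
    by_contra hX
    have hfP : ∀ j, f j ∈ P := fun j => by
      have hj : a j ≤ a 2 := hmono (Fin.le_last j)
      refine (mem_or_all_X hP (k := a 2 - a j) fun i => hV _ ⟨I.mul_mem_right _ (hfI j), ?_⟩)
        |>.resolve_right hX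
      have := (hf j).mul ((isHomogeneous_X K i).pow (a 2 - a j))
      rwa [one_mul, Nat.add_sub_cancel' hj] at this
    refine hX fun i => hP.mem_of_pow_mem (a 0 + a 1 + a 2) ?_
    have hz : hq (Ideal.ofList (List.ofFn f)) (a 0 + a 1 + a 2) = 0 := by
      rw [hq_ofList hf hreg, Finset.card_eq_zero, Finset.eq_empty_iff_forall_notMem]
      intro m hm
      obtain ⟨hb, hs⟩ := mem_lev.1 hm
      rw [Fin.sum_univ_three] at hs
      have := hb 0
      have := hb 1
      have := hb 2
      omega
    have hmem : (X i ^ (a 0 + a 1 + a 2) : MvPolynomial (Fin 3) K) ∈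
        grade (Ideal.ofList (List.ofFn f)) (a 0 + a 1 + a 2) := by
      rw [grade_eq_hom hz, mem_homogeneousSubmodule]
      simpa using (isHomogeneous_X K i).pow (a 0 + a 1 + a 2)
    refine (Ideal.span_le.2 fun x hx => ?_) hmem.1
    obtain ⟨j, rfl⟩ := List.mem_ofFn.1 hx
    exact hfP j
  let g : Fin 3 → MvPolynomial (Fin 3) K := ![g0, g1, g2]
  have hgh : ∀ k, (g k).IsHomogeneous (a' k) := fun k => by
    fin_cases k
    · exact hg0h
    · exact hg1.2
    · show g2.IsHomogeneous (a' 2)
      rw [ha'2]; exact hg2.2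
  have hgI : ∀ k, g k ∈ I := fun k => by
    fin_cases k
    · exact hg0I
    · exact hg1.1
    · exact hg2.1
  have hgreg : RegMod ⊥ (List.ofFn g) := by
    rw [hl]
    exact regMod_append (l₁ := [g0, g1]) (l₂ := [g2]) |>.2
      ⟨hreg1, by rw [bot_sup_eq]; exact hg2nzd, trivial⟩
  exact gen_ge (fun i => by have := ha i; omega) hle
    (fun k => ⟨fun h => if_pos h, fun h => if_neg h⟩)
    (good_vec ha'0.1 ha'1.1 (le_of_le_of_eq (ha'1.2.trans h12) ha'2.symm)) hgh hgreg hgI

/-- Successors of one or two monomials of degree one. -/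
lemma card_succ_one {A : Finset (Fin 3 → ℕ)} (hA : A ⊆ allMon 3 1) (h2 : A.card ≤ 2) :
    (succMon 1 A).card ≤ 3 * A.card - (A.card - 1) := by
  classical
  have hone : ∀ x : Fin 3 → ℕ, (succMon 1 {x}).card ≤ 3 := fun x => by
    rw [succMon, up]
    refine (card_filter_le _ _).trans (card_image_le.trans ?_)
    simp
  interval_cases h : A.card
  · rw [card_eq_zero] at h
    subst h
    simp [succMon, up]
  · obtain ⟨x, rfl⟩ := card_eq_one.1 h
    simpa using hone x
  · obtain ⟨x, y, hxy, rfl⟩ := card_eq_two.1 h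
    have hsplit : succMon 1 ({x, y} : Finset (Fin 3 → ℕ)) = succMon 1 {x} ∪ succMon 1 {y} := by
      ext z
      simp only [succMon, mem_union, mem_up, mem_insert, mem_singleton]
      aesop
    have hunit : ∀ z ∈ ({x, y} : Finset (Fin 3 → ℕ)), ∃ i, z = Pi.single i 1 := by
      intro z hz
      have hs := mem_allMon.1 (hA hz)
      rw [Fin.sum_univ_three] at hs
      rcases Nat.eq_zero_or_pos (z 0) with h0 | h0
      · rcases Nat.eq_zero_or_pos (z 1) with h1 | h1
        · exact ⟨2, funext fun i => by fin_cases i <;> simp <;> omega⟩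
        · exact ⟨1, funext fun i => by fin_cases i <;> simp <;> omega⟩
      · exact ⟨0, funext fun i => by fin_cases i <;> simp <;> omega⟩
    obtain ⟨i, hi⟩ := hunit x (by simp)
    obtain ⟨j, hj⟩ := hunit y (by simp)
    subst hi hj
    have hbd : ∀ l, (Pi.single i 1 + Pi.single j 1 : Fin 3 → ℕ) l < 1 + 2 := fun l => by
      simp only [Pi.add_apply, Pi.single_apply]
      split_ifs <;> omega
    have hcommon : 1 ≤ (succMon 1 ({Pi.single i 1} : Finset (Fin 3 → ℕ)) ∩
        succMon 1 {Pi.single j 1}).card := by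
      refine card_pos.2 ⟨Pi.single i 1 + Pi.single j 1, mem_inter.2 ⟨?_, ?_⟩⟩
      · exact mem_up.2 ⟨hbd, _, mem_singleton_self _, j, rfl⟩
      · exact mem_up.2 ⟨hbd, _, mem_singleton_self _, i, add_comm _ _⟩
    have hcu := card_union_add_card_inter (succMon 1 ({Pi.single i 1} : Finset (Fin 3 → ℕ)))
      (succMon 1 {Pi.single j 1})
    rw [hsplit]
    have := hone (Pi.single i 1)
    have := hone (Pi.single j 1)
    omega

/-- The linear forms of an ideal generate at least five quadrics if there are two of them. -/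
lemma gen_one {I : Ideal (MvPolynomial (Fin 3) K)} :
    3 * finrank K ↥(grade I 1) - (finrank K ↥(grade I 1) - 1) ≤
      finrank K ↥(grade (Ideal.span (grade I 1 : Set (MvPolynomial (Fin 3) K))) 2) ∨
      3 ≤ finrank K ↥(grade I 1) := by
  set k := finrank K ↥(grade I 1) with hk
  set G := grade (Ideal.span (grade I 1 : Set (MvPolynomial (Fin 3) K))) 2
  have hfin : FiniteDimensional K ↥(grade I 1) := finite_grade I 1
  have := finite_hom (K := K) (n := 3) 1
  have := finite_grade (Ideal.span (grade I 1 : Set (MvPolynomial (Fin 3) K))) 2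
  rcases Nat.lt_or_ge k 3 with hk3 | hk3
  swap
  · exact Or.inr hk3
  left
  rcases Nat.eq_zero_or_pos k with h0 | h0
  · omega
  have hne : grade I 1 ≠ ⊥ := fun hb => by rw [hk, hb, finrank_bot] at h0; omega
  obtain ⟨l, hl, hl0⟩ := Submodule.exists_mem_ne_zero_of_ne_bot hne
  have hmap : ∀ x ∈ grade I 1,
      (homogeneousSubmodule (Fin 3) K 1).map (LinearMap.mulLeft K x) ≤ G := by
    rintro x hx _ ⟨p, hp, rfl⟩
    exact ⟨Ideal.mul_mem_right _ _ (Ideal.subset_span hx), hx.2.mul hp⟩
  have hrank : ∀ x : MvPolynomial (Fin 3) K, x ≠ 0 →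
      finrank K ↥((homogeneousSubmodule (Fin 3) K 1).map (LinearMap.mulLeft K x)) = 3 := by
    intro x hx
    have he : finrank K ↥(homogeneousSubmodule (Fin 3) K 1) = 3 := by
      rw [finrank_hom_three]; rfl
    refine (Submodule.equivMapOfInjective _ (mul_right_injective₀ hx) _).finrank_eq.symm.trans he
  have h3 := (hrank l hl0).symm.le.trans (Submodule.finrank_mono (hmap l hl))
  rcases Nat.lt_or_ge k 2 with hk2 | hk2
  · omega
  obtain ⟨l', hl', hnot⟩ : ∃ l' ∈ grade I 1, l' ∉ Submodule.span K {l} := by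
    by_contra hcon
    simp only [not_exists, not_and, not_not] at hcon
    have h1 := Submodule.finrank_mono (show grade I 1 ≤ Submodule.span K {l} from hcon)
    rw [finrank_span_singleton hl0] at h1
    omega
  have hl'0 : l' ≠ 0 := fun h => hnot (h ▸ zero_mem _)
  set A := (homogeneousSubmodule (Fin 3) K 1).map (LinearMap.mulLeft K l)
  set B := (homogeneousSubmodule (Fin 3) K 1).map (LinearMap.mulLeft K l')
  have hinf : A ⊓ B ≤ Submodule.span K {l * l'} := by
    rintro _ ⟨⟨p, hp, rfl⟩, ⟨p', hp', he⟩⟩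
    simp only [LinearMap.mulLeft_apply] at he ⊢
    -- `l` is prime: it divides `l'` or `p'`
    obtain ⟨u, b, c, hrel, hcu, hcb⟩ := UniqueFactorizationMonoid.exists_reduced_factors l hl0 l'
    have hc : c ≠ 0 := fun h0 => hl0 (by rw [← hcu, h0, zero_mul])
    have hu0 : u ≠ 0 := fun h0 => hl0 (by rw [← hcu, h0, mul_zero])
    have hb0 : b ≠ 0 := fun h0 => hl'0 (by rw [← hcb, h0, mul_zero])
    have hd1 : c.totalDegree + u.totalDegree = 1 := by
      rw [← totalDegree_mul_of_isDomain hc hu0, hcu, IsHomogeneous.totalDegree hl.2 hl0]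
    have hd2 : c.totalDegree + b.totalDegree = 1 := by
      rw [← totalDegree_mul_of_isDomain hc hb0, hcb, IsHomogeneous.totalDegree hl'.2 hl'0]
    rcases Nat.eq_zero_or_pos c.totalDegree with hc1 | hc1
    · obtain ⟨w, hw⟩ : u ∣ p' := hrel.dvd_of_dvd_mul_left ⟨p, mul_left_cancel₀ hc (by
        rw [← mul_assoc, hcb, ← mul_assoc, hcu]; exact he)⟩
      have hc2 := hc1
      rw [totalDegree_eq_zero_iff_eq_C] at hc1
      set γ := coeff 0 c
      have hγ : γ ≠ 0 := fun h => hc (by rw [hc1, h, map_zero])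
      by_cases hp'0 : p' = 0
      · rw [← he, hp'0, mul_zero]; exact zero_mem _
      have hw0 : w ≠ 0 := fun h => hp'0 (by rw [hw, h, mul_zero])
      have hwd : w.totalDegree = 0 := by
        have := congrArg totalDegree hw
        rw [IsHomogeneous.totalDegree hp' hp'0, totalDegree_mul_of_isDomain hu0 hw0] at this
        omega
      rw [totalDegree_eq_zero_iff_eq_C] at hwd
      refine Submodule.mem_span_singleton.2 ⟨γ⁻¹ * coeff 0 w, ?_⟩
      rw [← he, hw, ← hcu, hwd, coeff_C, if_pos rfl, smul_eq_C_mul, map_mul, hc1]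
      have : (C γ⁻¹ : MvPolynomial (Fin 3) K) * C γ = 1 := by
        rw [← map_mul, inv_mul_cancel₀ hγ, map_one]
      linear_combination (u * l' * C (coeff 0 w)) * this
    · exfalso
      have hu1 : u.totalDegree = 0 := by omega
      have hb1 : b.totalDegree = 0 := by omega
      rw [totalDegree_eq_zero_iff_eq_C] at hu1 hb1
      have hu2 : coeff 0 u ≠ 0 := fun h => hu0 (by rw [hu1, h, map_zero])
      refine hnot (Submodule.mem_span_singleton.2 ⟨coeff 0 b * (coeff 0 u)⁻¹, ?_⟩)
      rw [smul_eq_C_mul, map_mul, ← hcu, ← hcb, hu1, hb1]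
      simp only [coeff_C, if_true]
      have : (C (coeff 0 u)⁻¹ : MvPolynomial (Fin 3) K) * C (coeff 0 u) = 1 := by
        rw [← map_mul, inv_mul_cancel₀ hu2, map_one]
      linear_combination (c * C (coeff 0 b)) * this
  have hAB := Submodule.finrank_sup_add_finrank_inf_eq A B
  have hle : A ⊔ B ≤ G := sup_le (hmap l hl) (hmap l' hl')
  have h1 := Submodule.finrank_mono hle
  have h2 := Submodule.finrank_mono hinf
  have h4 : finrank K ↥(Submodule.span K {l * l'}) ≤ 1 := by
    simpa using finrank_span_le_card ({l * l'} : Set (MvPolynomial (Fin 3) K))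
  have hA : finrank K ↥A = 3 := hrank l hl0
  have hB : finrank K ↥B = 3 := hrank l' hl'0
  omega

/-- The bound on the generators in three variables over an infinite field. -/
theorem gen_ge_three [Infinite K] {a : Fin 3 → ℕ} (ha : ∀ i, 2 ≤ a i) (hmono : Monotone a)
    {f : Fin 3 → MvPolynomial (Fin 3) K} (hf : ∀ i, (f i).IsHomogeneous (a i))
    (hreg : RegMod ⊥ (List.ofFn f)) {I : Ideal (MvPolynomial (Fin 3) K)}
    (hI : Closed I) (hfI : ∀ i, f i ∈ I) (d : ℕ) :
    (succMon d (lppMono a (hq I d) d)).card ≤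
      finrank K ↥(grade (Ideal.span (grade I d : Set (MvPolynomial (Fin 3) K))) (d + 1)) := by
  classical
  set G := grade (Ideal.span (grade I d : Set (MvPolynomial (Fin 3) K))) (d + 1)
  have hsubA : lppMono a (hq I d) d ⊆ allMon 3 d :=
    union_subset sdiff_subset ((filter_subset _ _).trans (lev_subset_allMon a d))
  by_cases hfull : hq I d = 0
  · have hG : G = homogeneousSubmodule (Fin 3) K (d + 1) := by
      refine le_antisymm inf_le_right fun p hp => ⟨?_, hp⟩
      rw [p.as_sum]
      refine sum_mem fun δ hδ => ?_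
      have hdeg : δ.degree = d + 1 := by
        by_contra hne
        exact mem_support_iff.1 hδ (hp.coeff_eq_zero hne)
      obtain ⟨i, hi⟩ : ∃ i, δ i ≠ 0 := by
        by_contra hh
        simp only [not_exists, not_not] at hh
        rw [show δ = 0 from Finsupp.ext hh, map_zero] at hdeg
        omega
      obtain ⟨δ', rfl⟩ : ∃ δ', δ = δ' + Finsupp.single i 1 :=
        ⟨δ - Finsupp.single i 1,
          (tsub_add_cancel_of_le (Finsupp.single_le_iff.2 (by omega))).symm⟩
      rw [map_add, Finsupp.degree_single] at hdeg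
      rw [monomial_add_single, pow_one]
      refine Ideal.mul_mem_right _ _ (Ideal.subset_span ?_)
      show _ ∈ grade I d
      rw [grade_eq_hom hfull]
      exact isHomogeneous_monomial _ (by omega)
    rw [hG, finrank_hom_allMon]
    refine card_le_card fun x hx => ?_
    obtain ⟨-, m, hm, i, rfl⟩ := mem_up.1 hx
    simp [mem_allMon, sum_add_distrib, mem_allMon.1 (hsubA hm)]
  have hle := (good_vec (ha 0) (hmono (by decide)) (hmono (by decide)) f hf hreg I hI hfI d).1
  rcases Nat.lt_or_ge d 2 with hd | hd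
  swap
  · exact gen_ge_of_two_le ha hmono hf hreg hI hfI hd hfull
  have hlev : lev a d = allMon 3 d := by
    refine Finset.Subset.antisymm (lev_subset_allMon a d) fun m hm =>
      mem_lev.2 ⟨fun i => ?_, mem_allMon.1 hm⟩
    have hs := mem_allMon.1 hm
    have := single_le_sum (f := m) (fun l _ => Nat.zero_le _) (mem_univ i)
    have := ha i
    omega
  have hcard : (lppMono a (hq I d) d).card = (allMon 3 d).card - hq I d := by
    rw [card_lppMono, hlev, Nat.sub_self, Nat.zero_add]
  have hhom := finrank_hom_allMon (K := K) (n := 3) d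
  have hge := finrank_grade_le_hom (K := K) I d
  have hval := finrank_hom_three (K := K) d
  rcases (show d = 0 ∨ d = 1 by omega) with rfl | rfl
  · have : (lppMono a (hq I 0) 0).card = 0 := by
      simp [Nat.choose] at hval
      omega
    rw [card_eq_zero] at this
    rw [this]
    simp [succMon, up]
  · have hk : (lppMono a (hq I 1) 1).card = finrank K ↥(grade I 1) := by
      simp only [hq] at hcard ⊢
      omega
    have hk2 : finrank K ↥(grade I 1) ≤ 2 := by
      simp [Nat.choose] at hval
      simp only [hq] at hfull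
      omega
    have h1 := card_succ_one hsubA (by omega)
    rw [hk] at h1
    rcases gen_one (I := I) with h | h
    · simpa [G] using h1.trans h
    · omega

/-- The bound on the generators in three variables. -/
theorem gen_ge_three' {a : Fin 3 → ℕ} (ha : ∀ i, 2 ≤ a i) (hmono : Monotone a)
    {f : Fin 3 → MvPolynomial (Fin 3) K} (hf : ∀ i, (f i).IsHomogeneous (a i))
    (hreg : RegMod ⊥ (List.ofFn f)) {I : Ideal (MvPolynomial (Fin 3) K)}
    (hI : Closed I) (hfI : ∀ i, f i ∈ I) (d : ℕ) :
    (succMon d (lppMono a (hq I d) d)).card ≤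
      finrank K ↥(grade (Ideal.span (grade I d : Set (MvPolynomial (Fin 3) K))) (d + 1)) := by
  classical
  let L := RatFunc K
  have : Infinite L := Infinite.of_injective _ (RatFunc.algebraMap_injective K)
  let φ := MvPolynomial.map (σ := Fin 3) (algebraMap K L)
  set IL := I.map φ
  have hfL : ∀ i, (φ (f i)).IsHomogeneous (a i) := fun i => (hf i).map _
  have hregL : RegMod ⊥ (List.ofFn fun i => φ (f i)) := by
    have := RegMod.baseChange (L := L) _ _ hreg
    rw [Ideal.map_bot, List.map_ofFn] at this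
    exact this
  have hbound := gen_ge_three ha hmono hfL hregL (Closed.baseChange hI)
    (fun i => Ideal.mem_map_of_mem _ (hfI i)) d
  have hhq : hq IL d = hq I d := by
    simp only [hq, IL, φ, finrank_grade_baseChange, finrank_hom_three]
  rw [hhq] at hbound
  refine hbound.trans ?_
  rw [← finrank_grade_baseChange (K := K) (L := L)
    (Ideal.span (grade I d : Set (MvPolynomial (Fin 3) K))) (d + 1)]
  set G := Ideal.span (grade I d : Set (MvPolynomial (Fin 3) K))
  have hGd : grade G d = grade I d := le_antisymm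
    (inf_le_inf_right _ (Ideal.span_le.2 fun x hx => hx.1))
    fun p hp => ⟨Ideal.subset_span hp, hp.2⟩
  have heq : grade (G.map φ) d = grade IL d := by
    have := finite_grade IL d
    refine Submodule.eq_of_le_of_finrank_le
      (inf_le_inf_right _ (Ideal.map_mono (Ideal.span_le.2 fun x hx => hx.1))) ?_
    rw [finrank_grade_baseChange, finrank_grade_baseChange, hGd]
  have := finite_grade (G.map φ) (d + 1)
  refine Submodule.finrank_mono (inf_le_inf_right _ (Ideal.span_le.2 fun x hx => ?_))
  exact (heq.symm ▸ hx : x ∈ grade (G.map φ) d).1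

end Vale.P200.Betti
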